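/-
R242 / Cvx / Init : initial indices (paper Lemma 3.1 and (5.8)), framework free.   Architect: helper100.

A finite dimensional space `V` is mapped injectively and linearly into functions `ι → k`
(Taylor coefficients), `ι` carries a well-order `r`.  The initial index of a nonzero function is the
`r`-least index with nonzero value.  The number of initial indices equals `dim V`
(one-dimensional leaves + elimination), there is a basis with pairwise distinct initial indices, and
such a basis is adapted: the initial index of a linear combination is the least one that occurs.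
-/
import Mathlib

set_option autoImplicit false

namespace Claimed.Agent.R242

open Module

section Init

variable {k V ι : Type*} [Field k] [AddCommGroup V] [Module k V]

/-- `γ` is the `r`-least index at which `f` does not vanish. -/
def IsIni (r : ι → ι → Prop) (f : ι → k) (γ : ι) : Prop :=
  f γ ≠ 0 ∧ ∀ δ, f δ ≠ 0 → ¬ r δ γ

/-- the set of initial indices of the nonzero vectors of `V` -/
def iniSet (r : ι → ι → Prop) (T : V →ₗ[k] (ι → k)) : Set ι :=
  {γ | ∃ v, IsIni r (T v) γ}

variable (r : ι → ι → Prop) [IsWellOrder ι r]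

theorem isIni_exists {f : ι → k} (hf : f ≠ 0) : ∃ γ, IsIni r f γ := by
  have hne : {δ | f δ ≠ 0}.Nonempty := by
    by_contra h
    rw [Set.not_nonempty_iff_eq_empty] at h
    apply hf
    funext δ
    by_contra hδ
    have : δ ∈ {δ | f δ ≠ 0} := hδ
    rw [h] at this
    exact this
  obtain ⟨γ, hγ, hmin⟩ := (IsWellFounded.wf (r := r)).has_min _ hne
  exact ⟨γ, hγ, fun δ hδ => hmin δ hδ⟩

theorem isIni_unique {f : ι → k} {γ δ : ι} (h1 : IsIni r f γ) (h2 : IsIni r f δ) : γ = δ := by
  rcases trichotomous_of r γ δ with h | h | h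
  · exact absurd h (h2.2 γ h1.1)
  · exact h
  · exact absurd h (h1.2 δ h2.1)

/-- a value before the initial index vanishes -/
theorem IsIni.eq_zero_of_rel {r : ι → ι → Prop} {f : ι → k} {γ δ : ι} (h : IsIni r f γ) (hδ : r δ γ) :
    f δ = 0 := by
  by_contra hne
  exact h.2 δ hne hδ

/-- `Finset` form of `ini_linear_combination` -/
theorem ini_comb_finset (T : V →ₗ[k] (ι → k)) {κ : Type*} (b : κ → V) (g : κ → ι)
    (hg : Function.Injective g) (hb : ∀ i, IsIni r (T (b i)) (g i)) (s : Finset κ) (c : κ → k) (i₀ : κ)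
    (hi₀ : i₀ ∈ s) (hc : c i₀ ≠ 0) (hmin : ∀ i ∈ s, c i ≠ 0 → ¬ r (g i) (g i₀)) :
    IsIni r (T (∑ i ∈ s, c i • b i)) (g i₀) := by
  classical
  have hval : ∀ δ, T (∑ i ∈ s, c i • b i) δ = ∑ i ∈ s, c i * T (b i) δ := by
    intro δ
    rw [map_sum, Finset.sum_apply]
    refine Finset.sum_congr rfl fun i _ => ?_
    rw [map_smul, Pi.smul_apply, smul_eq_mul]
  constructor
  · rw [hval, Finset.sum_eq_single i₀]
    · exact mul_ne_zero hc (hb i₀).1
    · intro i hi hne
      by_cases hci : c i = 0
      · rw [hci, zero_mul]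
      · have h1 : r (g i₀) (g i) := by
          rcases trichotomous_of r (g i) (g i₀) with h | h | h
          · exact absurd h (hmin i hi hci)
          · exact absurd (hg h) hne
          · exact h
        rw [(hb i).eq_zero_of_rel h1, mul_zero]
    · intro h
      exact absurd hi₀ h
  · intro δ hδ hr
    apply hδ
    rw [hval]
    refine Finset.sum_eq_zero fun i hi => ?_
    by_cases hci : c i = 0
    · rw [hci, zero_mul]
    · have h1 : r δ (g i) := by
        rcases trichotomous_of r (g i) (g i₀) with h | h | h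
        · exact absurd h (hmin i hi hci)
        · rw [h]; exact hr
        · exact _root_.trans hr h
      rw [(hb i).eq_zero_of_rel h1, mul_zero]

/-- vectors with pairwise distinct initial indices are linearly independent -/
theorem ini_linearIndependent (T : V →ₗ[k] (ι → k)) {κ : Type*} (b : κ → V) (g : κ → ι)
    (hg : Function.Injective g) (hb : ∀ i, IsIni r (T (b i)) (g i)) : LinearIndependent k b := by
  classical
  rw [linearIndependent_iff']
  intro s c hsum i hi
  by_contra hci
  have hne : (g '' {j | j ∈ s ∧ c j ≠ 0}).Nonempty := ⟨g i, i, ⟨hi, hci⟩, rfl⟩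
  obtain ⟨_, ⟨i₀, ⟨hi₀, hc₀⟩, rfl⟩, hmin⟩ := (IsWellFounded.wf (r := r)).has_min _ hne
  have := ini_comb_finset r T b g hg hb s c i₀ hi₀ hc₀
    (fun j hj hcj => hmin (g j) ⟨j, ⟨hj, hcj⟩, rfl⟩)
  rw [hsum, map_zero] at this
  exact this.1 rfl

/-- the initial index of a linear combination of vectors with distinct initial indices is the
least initial index with nonzero coefficient -/
theorem ini_linear_combination (T : V →ₗ[k] (ι → k)) {κ : Type*} [Fintype κ] (b : κ → V) (g : κ → ι)
    (hg : Function.Injective g) (hb : ∀ i, IsIni r (T (b i)) (g i)) (c : κ → k) (i₀ : κ)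
    (hc : c i₀ ≠ 0) (hmin : ∀ i, c i ≠ 0 → ¬ r (g i) (g i₀)) :
    IsIni r (T (∑ i, c i • b i)) (g i₀) := by
  exact ini_comb_finset r T b g hg hb Finset.univ c i₀ (Finset.mem_univ _) hc (fun i _ => hmin i)

variable [FiniteDimensional k V]

/-- the chosen vectors -/
noncomputable def iniVec (T : V →ₗ[k] (ι → k)) : iniSet r T → V := fun γ => γ.2.choose

omit [IsWellOrder ι r] [FiniteDimensional k V] in
theorem iniVec_spec (T : V →ₗ[k] (ι → k)) (γ : iniSet r T) : IsIni r (T (iniVec r T γ)) γ :=
  γ.2.choose_spec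

omit [FiniteDimensional k V] in
theorem iniVec_linearIndependent (T : V →ₗ[k] (ι → k)) : LinearIndependent k (iniVec r T) :=
  ini_linearIndependent r T (iniVec r T) Subtype.val Subtype.val_injective (iniVec_spec r T)

theorem iniSet_finite (T : V →ₗ[k] (ι → k)) : (iniSet r T).Finite := by
  have := (iniVec_linearIndependent r T).finite_of_isNoetherian
  exact Set.toFinite _

/-- the chosen vectors span -/
theorem iniVec_span (T : V →ₗ[k] (ι → k)) (hT : Function.Injective T) :
    ⊤ ≤ Submodule.span k (Set.range (iniVec r T)) := by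
  classical
  have hfin : Finite (iniSet r T) := (iniSet_finite r T).to_subtype
  have hwf : WellFounded (fun a b : iniSet r T => r b.1 a.1) := by
    have : IsTrans (iniSet r T) (fun a b : iniSet r T => r b.1 a.1) :=
      ⟨fun a b c h1 h2 => _root_.trans h2 h1⟩
    have : Std.Irrefl (fun a b : iniSet r T => r b.1 a.1) :=
      ⟨fun a h => irrefl_of r a.1 h⟩
    exact Finite.wellFounded_of_trans_of_irrefl _
  have key : ∀ γ : iniSet r T, ∀ v, IsIni r (T v) γ →
      v ∈ Submodule.span k (Set.range (iniVec r T)) := by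
    intro γ
    induction γ using hwf.induction with
    | _ γ ih =>
      intro v hv
      have hw := iniVec_spec r T γ
      set c : k := T v γ / T (iniVec r T γ) γ with hc
      have hmem : iniVec r T γ ∈ Submodule.span k (Set.range (iniVec r T)) :=
        Submodule.subset_span ⟨γ, rfl⟩
      by_cases h0 : v - c • iniVec r T γ = 0
      · rw [sub_eq_zero.1 h0]
        exact Submodule.smul_mem _ _ hmem
      · have hT0 : T (v - c • iniVec r T γ) ≠ 0 := fun h => h0 (hT (by rw [h, map_zero]))
        obtain ⟨γ', hγ'⟩ := isIni_exists r hT0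
        have hval : ∀ δ, T (v - c • iniVec r T γ) δ = T v δ - c * T (iniVec r T γ) δ := by
          intro δ
          rw [map_sub, map_smul, Pi.sub_apply, Pi.smul_apply, smul_eq_mul]
        have hlt : r γ.1 γ' := by
          rcases trichotomous_of r γ.1 γ' with h | h | h
          · exact h
          · exfalso
            apply hγ'.1
            rw [← h, hval, hc, div_mul_cancel₀ _ hw.1, sub_self]
          · exfalso
            apply hγ'.1
            rw [hval, hv.eq_zero_of_rel h, hw.eq_zero_of_rel h, mul_zero, sub_zero]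
        have h1 := ih ⟨γ', _, hγ'⟩ hlt _ hγ'
        have h2 : v = (v - c • iniVec r T γ) + c • iniVec r T γ := by abel
        rw [h2]
        exact Submodule.add_mem _ h1 (Submodule.smul_mem _ _ hmem)
  intro v _
  by_cases hv : v = 0
  · rw [hv]; exact Submodule.zero_mem _
  · have hT0 : T v ≠ 0 := fun h => hv (hT (by rw [h, map_zero]))
    obtain ⟨γ, hγ⟩ := isIni_exists r hT0
    exact key ⟨γ, v, hγ⟩ v hγ

theorem iniBasis_exists (T : V →ₗ[k] (ι → k)) (hT : Function.Injective T) :
    ∃ b : Basis (iniSet r T) k V, ∀ γ, IsIni r (T (b γ)) γ := by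
  refine ⟨Basis.mk (iniVec_linearIndependent r T) (iniVec_span r T hT), fun γ => ?_⟩
  rw [Basis.mk_apply]
  exact iniVec_spec r T γ

/-- **Lemma 3.1, counting part.** -/
theorem iniSet_ncard (T : V →ₗ[k] (ι → k)) (hT : Function.Injective T) :
    (iniSet r T).ncard = finrank k V := by
  obtain ⟨b, _⟩ := iniBasis_exists r T hT
  rw [Module.finrank_eq_nat_card_basis b, Nat.card_coe_set_eq]

/-- a basis indexed by the initial indices -/
theorem exists_ini_basis (T : V →ₗ[k] (ι → k)) (hT : Function.Injective T) :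
    ∃ b : Basis (iniSet r T) k V, ∀ γ, IsIni r (T (b γ)) γ := by
  exact iniBasis_exists r T hT

/-- restriction to a set `ι₀` of indices that come first: if every vector whose restriction to `ι₀`
is nonzero has its initial index in `ι₀`, then there are at least `rank (restriction)` initial
indices in `ι₀`  (used for `# G_0(h) ≥ I_W(h)`). -/
theorem iniSet_inter_ncard_ge (T : V →ₗ[k] (ι → k)) (ι₀ : Set ι)
    (h : ∀ v γ, IsIni r (T v) γ → (∃ δ ∈ ι₀, T v δ ≠ 0) → γ ∈ ι₀) :
    finrank k (LinearMap.range ((LinearMap.funLeft k k (fun x : ι₀ => (x : ι))).comp T))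
      ≤ (iniSet r T ∩ ι₀).ncard := by
  classical
  set R : V →ₗ[k] (ι₀ → k) := (LinearMap.funLeft k k (fun x : ι₀ => (x : ι))).comp T with hR
  have hRv : ∀ v (x : ι₀), R v x = T v x := fun _ _ => rfl
  -- the restricted well-order
  let r₀ : ι₀ → ι₀ → Prop := fun a b => r a.1 b.1
  have hwo : IsWellOrder ι₀ r₀ :=
    (⟨⟨Subtype.val, Subtype.val_injective⟩, Iff.rfl⟩ : r₀ ↪r r).isWellOrder
  have hcard := iniSet_ncard r₀ (LinearMap.range R).subtype (Submodule.subtype_injective _)
  rw [← hcard]
  have hsub : Subtype.val '' iniSet r₀ (LinearMap.range R).subtype ⊆ iniSet r T ∩ ι₀ := by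
    rintro _ ⟨γ', ⟨⟨_, v, rfl⟩, hγ'⟩, rfl⟩
    have h1 : R v γ' ≠ 0 := hγ'.1
    have hT0 : T v ≠ 0 := by
      intro h0
      apply h1
      rw [hRv, h0]
      rfl
    obtain ⟨γ, hγ⟩ := isIni_exists r hT0
    have hγ0 : γ ∈ ι₀ := h v γ hγ ⟨γ'.1, γ'.2, h1⟩
    have hγ'' : IsIni r₀ (R v) ⟨γ, hγ0⟩ := ⟨hγ.1, fun δ hδ => hγ.2 δ.1 hδ⟩
    have heq : γ' = ⟨γ, hγ0⟩ := isIni_unique r₀ hγ' hγ''
    rw [heq]
    exact ⟨⟨v, hγ⟩, hγ0⟩
  calc (iniSet r₀ (LinearMap.range R).subtype).ncard
      = (Subtype.val '' iniSet r₀ (LinearMap.range R).subtype).ncard :=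
        (Set.ncard_image_of_injective _ Subtype.val_injective).symm
    _ ≤ (iniSet r T ∩ ι₀).ncard :=
        Set.ncard_le_ncard hsub ((iniSet_finite r T).subset Set.inter_subset_left)

end Init

section Mul

variable {σ : Type*} {k : Type*} [Field k]

/-- initial exponents add under multiplication of power series, for an additive well-order -/
theorem isIni_mul (r : (σ →₀ ℕ) → (σ →₀ ℕ) → Prop) [IsWellOrder (σ →₀ ℕ) r]
    (hadd : ∀ a b c, r a b → r (a + c) (b + c))
    {f g : MvPowerSeries σ k} {γ δ : σ →₀ ℕ} (hf : IsIni r (f : (σ →₀ ℕ) → k) γ)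
    (hg : IsIni r (g : (σ →₀ ℕ) → k) δ) : IsIni r ((f * g : MvPowerSeries σ k) : (σ →₀ ℕ) → k) (γ + δ) := by
  classical
  have hadd' : ∀ a b c, r a b → r (c + a) (c + b) := by
    intro a b c h
    rw [add_comm c a, add_comm c b]
    exact hadd a b c h
  -- a pair of indices with nonzero values is at least `(γ, δ)`
  have hge : ∀ a b, f a ≠ 0 → g b ≠ 0 → (a = γ ∧ b = δ) ∨ r (γ + δ) (a + b) := by
    intro a b ha hb
    have h1 : γ = a ∨ r γ a := by
      rcases trichotomous_of r γ a with h | h | h
      · exact Or.inr h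
      · exact Or.inl h
      · exact absurd h (hf.2 a ha)
    have h2 : δ = b ∨ r δ b := by
      rcases trichotomous_of r δ b with h | h | h
      · exact Or.inr h
      · exact Or.inl h
      · exact absurd h (hg.2 b hb)
    rcases h1 with rfl | h1
    · rcases h2 with rfl | h2
      · exact Or.inl ⟨rfl, rfl⟩
      · exact Or.inr (hadd' _ _ _ h2)
    · rcases h2 with rfl | h2
      · exact Or.inr (hadd _ _ _ h1)
      · exact Or.inr (_root_.trans (hadd _ _ δ h1) (hadd' _ _ a h2))
  have hcoeff : ∀ n, (f * g : MvPowerSeries σ k) n =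
      ∑ p ∈ Finset.HasAntidiagonal.antidiagonal n, f p.1 * g p.2 := fun n => MvPowerSeries.coeff_mul n f g
  constructor
  · rw [hcoeff, Finset.sum_eq_single (γ, δ)]
    · exact mul_ne_zero hf.1 hg.1
    · rintro ⟨a, b⟩ hab hne
      rw [Finset.HasAntidiagonal.mem_antidiagonal] at hab
      by_contra h0
      have ha : f a ≠ 0 := left_ne_zero_of_mul h0
      have hb : g b ≠ 0 := right_ne_zero_of_mul h0
      rcases hge a b ha hb with ⟨rfl, rfl⟩ | h
      · exact hne rfl
      · have hab' : a + b = γ + δ := hab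
        rw [hab'] at h
        exact irrefl_of r _ h
    · intro h
      have hmem : ((γ, δ) : (σ →₀ ℕ) × (σ →₀ ℕ)) ∈ Finset.HasAntidiagonal.antidiagonal (γ + δ) := by
        rw [Finset.HasAntidiagonal.mem_antidiagonal]
      exact absurd hmem h
  · intro ε hε hr
    apply hε
    rw [hcoeff]
    refine Finset.sum_eq_zero ?_
    rintro ⟨a, b⟩ hab
    rw [Finset.HasAntidiagonal.mem_antidiagonal] at hab
    have hab' : a + b = ε := hab
    by_contra h0
    have ha : f a ≠ 0 := left_ne_zero_of_mul h0
    have hb : g b ≠ 0 := right_ne_zero_of_mul h0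
    rcases hge a b ha hb with ⟨rfl, rfl⟩ | h
    · rw [hab'] at hr
      exact irrefl_of r _ hr
    · rw [hab'] at h
      exact irrefl_of r _ (_root_.trans h hr)

end Mul

end Claimed.Agent.R242

/-! equation lemmas of this file, cited once here (rule 6) -/
namespace Claimed.Agent.R242

theorem r242_eqcite_Cvx_Init : True := by
  have := @Claimed.Agent.R242.iniSet.eq_1.{0,0,0}
  have := @Claimed.Agent.R242.iniVec.eq_1.{0,0,0}
  have := @Claimed.Agent.R242.IsIni.eq_1.{0,0}
  trivial

end Claimed.Agent.R242
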