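/-
R242 / Cvx / WOrd : real weighted orders of power series in `n` variables and the monomial orders of the paper.
Framework free.   Architect: helper100.

 * `wdeg w γ = ∑ w_i γ_i`,  `wOrd w f = min {wdeg w γ : γ ∈ supp f}`  (weights `w ≥ 0`; monomial valuation with real weights).
 * `monoLT w₁ w₂` : compare first `wdeg w₁`, then `wdeg w₂`, then lexicographically.
      Section 3: `w₁ = 1`, `w₂ = 0` (total degree, then lex).   Section 5: `w₁ = u` (old weights), `w₂ = 1_tangential`.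
   It is an additive well-order (Dickson: `Fin n →₀ ℕ` is well quasi ordered and the order refines the product order).
 * the perturbation estimate  v_ε(s) ≥ ℓ(p) + min(ε|β|, gap)   (replacement of paper (5.12)).
-/
import Mathlib
import Claimed.Agent.R242.Cvx.Init

set_option autoImplicit false

namespace Claimed.Agent.R242

open Finset

variable {n : ℕ}

/-- weighted degree of an exponent -/
noncomputable def wdeg (w : Fin n → ℝ) (γ : Fin n →₀ ℕ) : ℝ := ∑ i, w i * (γ i : ℝ)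

/-- weighted order of a power series (junk value `sInf ∅ = 0` for `f = 0`) -/
noncomputable def wOrd (w : Fin n → ℝ) (f : MvPowerSeries (Fin n) ℂ) : ℝ :=
  sInf (wdeg w '' {γ | MvPowerSeries.coeff γ f ≠ 0})

theorem wdeg_add (w : Fin n → ℝ) (γ δ : Fin n →₀ ℕ) : wdeg w (γ + δ) = wdeg w γ + wdeg w δ := by
  unfold wdeg
  rw [← Finset.sum_add_distrib]
  refine Finset.sum_congr rfl fun i _ => ?_
  rw [Finsupp.add_apply]
  push_cast
  ring

theorem wdeg_nonneg {w : Fin n → ℝ} (hw : ∀ i, 0 ≤ w i) (γ : Fin n →₀ ℕ) : 0 ≤ wdeg w γ :=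
  Finset.sum_nonneg fun i _ => mul_nonneg (hw i) (Nat.cast_nonneg _)

/-- a finite set of reals has a gap -/
theorem wordA_finite_gap {F : Set ℝ} (hF : F.Finite) :
    ∃ gap : ℝ, 0 < gap ∧ gap ≤ 1 ∧ ∀ a ∈ F, ∀ b ∈ F, a < b → a + gap ≤ b := by
  classical
  set D : Finset ℝ := insert 1 (((hF.toFinset ×ˢ hF.toFinset).filter fun p => p.1 < p.2).image
    fun p => p.2 - p.1) with hD
  have hne : D.Nonempty := ⟨1, Finset.mem_insert_self _ _⟩
  refine ⟨D.min' hne, ?_, Finset.min'_le _ _ (Finset.mem_insert_self _ _), ?_⟩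
  · have hm := Finset.min'_mem D hne
    rcases Finset.mem_insert.1 hm with h | h
    · rw [h]; norm_num
    · obtain ⟨q, hq, hq2⟩ := Finset.mem_image.1 h
      rw [← hq2]
      have := (Finset.mem_filter.1 hq).2
      linarith
  · intro a ha b hb hab
    have : b - a ∈ D := by
      apply Finset.mem_insert_of_mem
      apply Finset.mem_image.2
      refine ⟨(a, b), Finset.mem_filter.2 ⟨Finset.mem_product.2 ⟨?_, ?_⟩, hab⟩, rfl⟩
      · exact hF.mem_toFinset.2 ha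
      · exact hF.mem_toFinset.2 hb
    have := Finset.min'_le D _ this
    linarith

/-- only finitely many values below a bound -/
theorem wordA_finite_values {u : Fin n → ℝ} (hu : ∀ i, 0 ≤ u i) (B : ℝ) :
    {x : ℝ | x ≤ B ∧ ∃ γ : Fin n →₀ ℕ, wdeg u γ = x}.Finite := by
  classical
  -- the bounding exponent
  set M : Fin n →₀ ℕ := Finsupp.equivFunOnFinite.symm fun i => ⌊B / u i⌋₊ with hM
  refine ((Set.finite_Iic M).image (wdeg u)).subset ?_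
  rintro x ⟨hx, γ, rfl⟩
  set γ' : Fin n →₀ ℕ := Finsupp.equivFunOnFinite.symm fun i => if u i = 0 then 0 else γ i with hγ'
  refine ⟨γ', ?_, ?_⟩
  · rw [Set.mem_Iic]
    intro i
    show (if u i = 0 then 0 else γ i) ≤ ⌊B / u i⌋₊
    split_ifs with h0
    · exact Nat.zero_le _
    · have hpos : 0 < u i := lt_of_le_of_ne (hu i) (Ne.symm h0)
      apply Nat.le_floor
      rw [le_div_iff₀ hpos]
      refine le_trans ?_ hx
      unfold wdeg
      rw [mul_comm]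
      exact Finset.single_le_sum (f := fun j => u j * (γ j : ℝ))
        (fun j _ => mul_nonneg (hu j) (Nat.cast_nonneg _)) (Finset.mem_univ i)
  · unfold wdeg
    refine Finset.sum_congr rfl fun i _ => ?_
    show u i * (((if u i = 0 then 0 else γ i : ℕ)) : ℝ) = _
    split_ifs with h0
    · rw [h0]; simp
    · rfl

/-- discreteness of the value semigroup -/
theorem wdeg_gap {u : Fin n → ℝ} (hu : ∀ i, 0 ≤ u i) (B : ℝ) :
    ∃ gap : ℝ, 0 < gap ∧ ∀ γ δ : Fin n →₀ ℕ, wdeg u γ ≤ B → wdeg u γ < wdeg u δ → wdeg u γ + gap ≤ wdeg u δ := by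
  obtain ⟨gap, h0, h1, hg⟩ := wordA_finite_gap (wordA_finite_values hu (B + 1))
  refine ⟨gap, h0, fun γ δ hγ hlt => ?_⟩
  by_cases hδ : wdeg u δ ≤ B + 1
  · exact hg _ ⟨by linarith, γ, rfl⟩ _ ⟨hδ, δ, rfl⟩ hlt
  · push Not at hδ
    linarith

/-- the monomial order -/
def monoLT (w₁ w₂ : Fin n → ℝ) (γ δ : Fin n →₀ ℕ) : Prop :=
  wdeg w₁ γ < wdeg w₁ δ ∨ (wdeg w₁ γ = wdeg w₁ δ ∧
    (wdeg w₂ γ < wdeg w₂ δ ∨ (wdeg w₂ γ = wdeg w₂ δ ∧ toLex (γ : Fin n → ℕ) < toLex (δ : Fin n → ℕ))))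

/-- the key of the monomial order -/
noncomputable def wordAKey (w₁ w₂ : Fin n → ℝ) (γ : Fin n →₀ ℕ) : ℝ ×ₗ (ℝ ×ₗ Lex (Fin n → ℕ)) :=
  toLex (wdeg w₁ γ, toLex (wdeg w₂ γ, toLex (γ : Fin n → ℕ)))

theorem wordA_monoLT_iff (w₁ w₂ : Fin n → ℝ) (γ δ : Fin n →₀ ℕ) :
    monoLT w₁ w₂ γ δ ↔ wordAKey w₁ w₂ γ < wordAKey w₁ w₂ δ := by
  unfold monoLT wordAKey
  rw [Prod.Lex.toLex_lt_toLex, Prod.Lex.toLex_lt_toLex]

theorem wordA_key_injective (w₁ w₂ : Fin n → ℝ) : Function.Injective (wordAKey w₁ w₂) := by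
  intro γ δ h
  have h1 := congrArg (fun x => ofLex (ofLex (ofLex x).2).2) h
  exact DFunLike.coe_injective h1

theorem wordA_wdeg_mono {w : Fin n → ℝ} (hw : ∀ i, 0 ≤ w i) {γ δ : Fin n →₀ ℕ} (h : γ ≤ δ) :
    wdeg w γ ≤ wdeg w δ :=
  Finset.sum_le_sum fun i _ => mul_le_mul_of_nonneg_left (by exact_mod_cast h i) (hw i)

theorem wordA_not_monoLT_of_le {w₁ w₂ : Fin n → ℝ} (h₁ : ∀ i, 0 ≤ w₁ i) (h₂ : ∀ i, 0 ≤ w₂ i)
    {γ δ : Fin n →₀ ℕ} (h : γ ≤ δ) : ¬ monoLT w₁ w₂ δ γ := by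
  have a1 := wordA_wdeg_mono h₁ h
  have a2 := wordA_wdeg_mono h₂ h
  have a3 : toLex (γ : Fin n → ℕ) ≤ toLex (δ : Fin n → ℕ) := Pi.toLex_monotone h
  rintro (h | ⟨-, h | ⟨-, h⟩⟩)
  · exact absurd h (not_lt.2 a1)
  · exact absurd h (not_lt.2 a2)
  · exact absurd h (not_lt.2 a3)

theorem monoLT_isWellOrder {w₁ w₂ : Fin n → ℝ} (h₁ : ∀ i, 0 ≤ w₁ i) (h₂ : ∀ i, 0 ≤ w₂ i) :
    IsWellOrder (Fin n →₀ ℕ) (monoLT w₁ w₂) := by
  have : IsStrictOrder (Fin n →₀ ℕ) (monoLT w₁ w₂) :=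
    { irrefl := fun a h => lt_irrefl _ ((wordA_monoLT_iff w₁ w₂ a a).1 h)
      trans := fun a b c hab hbc => (wordA_monoLT_iff w₁ w₂ a c).2
        (lt_trans ((wordA_monoLT_iff w₁ w₂ a b).1 hab) ((wordA_monoLT_iff w₁ w₂ b c).1 hbc)) }
  refine { wf := ?_, trichotomous := ?_ }
  · rw [RelEmbedding.wellFounded_iff_isEmpty]
    refine ⟨fun f => ?_⟩
    obtain ⟨i, j, hij, hle⟩ := wellQuasiOrdered_le (α := Fin n →₀ ℕ) f
    exact wordA_not_monoLT_of_le h₁ h₂ hle (f.map_rel_iff.2 hij)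
  · intro a b hab hba
    rw [wordA_monoLT_iff] at hab hba
    exact wordA_key_injective w₁ w₂ (le_antisymm (not_lt.1 hba) (not_lt.1 hab))

theorem monoLT_add (w₁ w₂ : Fin n → ℝ) (a b c : Fin n →₀ ℕ) (h : monoLT w₁ w₂ a b) :
    monoLT w₁ w₂ (a + c) (b + c) := by
  unfold monoLT at h ⊢
  simp only [wdeg_add, add_lt_add_iff_right, add_left_inj]
  rcases h with h | ⟨e1, h | ⟨e2, h⟩⟩
  · exact Or.inl h
  · exact Or.inr ⟨e1, Or.inl h⟩
  · refine Or.inr ⟨e1, Or.inr ⟨e2, ?_⟩⟩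
    obtain ⟨i, hj, hi⟩ := h
    refine ⟨i, fun j hji => ?_, ?_⟩
    · have h1 : a j = b j := hj j hji
      show (a + c) j = (b + c) j
      rw [Finsupp.add_apply, Finsupp.add_apply, h1]
    · have h1 : a i < b i := hi
      show (a + c) i < (b + c) i
      rw [Finsupp.add_apply, Finsupp.add_apply]
      omega

/-- `0` is the least exponent -/
theorem not_monoLT_zero {w₁ w₂ : Fin n → ℝ} (h₁ : ∀ i, 0 ≤ w₁ i) (h₂ : ∀ i, 0 ≤ w₂ i) (γ : Fin n →₀ ℕ) :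
    ¬ monoLT w₁ w₂ γ 0 :=
  wordA_not_monoLT_of_le h₁ h₂ zero_le

/-- the weighted order is attained at the initial exponent -/
theorem wOrd_eq_of_isIni {w₁ w₂ : Fin n → ℝ} (h₁ : ∀ i, 0 ≤ w₁ i) {f : MvPowerSeries (Fin n) ℂ} {γ : Fin n →₀ ℕ}
    (h : IsIni (monoLT w₁ w₂) (f : (Fin n →₀ ℕ) → ℂ) γ) : wOrd w₁ f = wdeg w₁ γ := by
  unfold wOrd
  refine IsLeast.csInf_eq ⟨⟨γ, h.1, rfl⟩, ?_⟩
  rintro _ ⟨δ, hδ, rfl⟩
  by_contra hlt
  exact h.2 δ hδ (Or.inl (not_le.1 hlt))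

theorem wOrd_le_of_coeff_ne {w : Fin n → ℝ} (hw : ∀ i, 0 ≤ w i) {f : MvPowerSeries (Fin n) ℂ} {γ : Fin n →₀ ℕ}
    (h : MvPowerSeries.coeff γ f ≠ 0) : wOrd w f ≤ wdeg w γ := by
  unfold wOrd
  refine csInf_le ⟨0, ?_⟩ ⟨γ, h, rfl⟩
  rintro _ ⟨δ, _, rfl⟩
  exact wdeg_nonneg hw δ

theorem le_wOrd {w : Fin n → ℝ} {f : MvPowerSeries (Fin n) ℂ} (hf : f ≠ 0) {c : ℝ}
    (h : ∀ γ, MvPowerSeries.coeff γ f ≠ 0 → c ≤ wdeg w γ) : c ≤ wOrd w f := by
  unfold wOrd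
  have hne : ∃ γ, MvPowerSeries.coeff γ f ≠ 0 := by
    by_contra hcon
    push Not at hcon
    exact hf (MvPowerSeries.ext fun γ => by rw [hcon γ, map_zero])
  obtain ⟨γ, hγ⟩ := hne
  refine le_csInf ⟨_, γ, hγ, rfl⟩ ?_
  rintro _ ⟨δ, hδ, rfl⟩
  exact h δ hδ

theorem wOrd_nonneg {w : Fin n → ℝ} (hw : ∀ i, 0 ≤ w i) (f : MvPowerSeries (Fin n) ℂ) : 0 ≤ wOrd w f := by
  unfold wOrd
  refine Real.sInf_nonneg ?_
  rintro _ ⟨δ, _, rfl⟩
  exact wdeg_nonneg hw δ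

theorem wOrd_mul {w : Fin n → ℝ} (hw : ∀ i, 0 ≤ w i) {f g : MvPowerSeries (Fin n) ℂ} (hf : f ≠ 0) (hg : g ≠ 0) :
    wOrd w (f * g) = wOrd w f + wOrd w g := by
  have h0 : ∀ i : Fin n, (0 : ℝ) ≤ (0 : Fin n → ℝ) i := fun _ => le_rfl
  have : IsWellOrder (Fin n →₀ ℕ) (monoLT w 0) := monoLT_isWellOrder hw h0
  obtain ⟨γ, hγ⟩ := isIni_exists (monoLT w 0) (f := (f : (Fin n →₀ ℕ) → ℂ)) hf
  obtain ⟨δ, hδ⟩ := isIni_exists (monoLT w 0) (f := (g : (Fin n →₀ ℕ) → ℂ)) hg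
  have hm := isIni_mul (monoLT w 0) (monoLT_add w 0) hγ hδ
  rw [wOrd_eq_of_isIni hw hm, wOrd_eq_of_isIni hw hγ, wOrd_eq_of_isIni hw hδ, wdeg_add]

theorem wOrd_add {w : Fin n → ℝ} (hw : ∀ i, 0 ≤ w i) {f g : MvPowerSeries (Fin n) ℂ} (hfg : f + g ≠ 0) (hf : f ≠ 0)
    (hg : g ≠ 0) : min (wOrd w f) (wOrd w g) ≤ wOrd w (f + g) := by
  refine le_wOrd hfg fun γ hγ => ?_
  rw [map_add] at hγ
  by_cases h1 : MvPowerSeries.coeff γ f = 0
  · have h2 : MvPowerSeries.coeff γ g ≠ 0 := by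
      intro h2
      rw [h1, h2, add_zero] at hγ
      exact hγ rfl
    exact (min_le_right _ _).trans (wOrd_le_of_coeff_ne hw h2)
  · exact (min_le_left _ _).trans (wOrd_le_of_coeff_ne hw h1)

theorem wOrd_smul (w : Fin n → ℝ) {c : ℂ} (hc : c ≠ 0) (f : MvPowerSeries (Fin n) ℂ) :
    wOrd w (c • f) = wOrd w f := by
  unfold wOrd
  congr 2
  ext γ
  simp only [Set.mem_ofPred_eq, map_smul, smul_eq_mul, ne_eq, mul_eq_zero, hc, false_or]

theorem wOrd_scale {w : Fin n → ℝ} (hw : ∀ i, 0 ≤ w i) {c : ℝ} (hc : 0 ≤ c) (f : MvPowerSeries (Fin n) ℂ) :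
    wOrd (fun i => c * w i) f = c * wOrd w f := by
  unfold wOrd
  have h1 : ∀ γ : Fin n →₀ ℕ, wdeg (fun i => c * w i) γ = c * wdeg w γ := by
    intro γ
    unfold wdeg
    rw [Finset.mul_sum]
    exact Finset.sum_congr rfl fun i _ => mul_assoc _ _ _
  open Pointwise in
  have h2 : wdeg (fun i => c * w i) '' {γ | MvPowerSeries.coeff γ f ≠ 0}
      = c • (wdeg w '' {γ | MvPowerSeries.coeff γ f ≠ 0}) := by
    ext t
    simp only [Set.mem_image, Set.mem_smul_set, smul_eq_mul, h1]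
    constructor
    · rintro ⟨γ, hγ, rfl⟩
      exact ⟨_, ⟨γ, hγ, rfl⟩, rfl⟩
    · rintro ⟨_, ⟨γ, hγ, rfl⟩, rfl⟩
      exact ⟨γ, hγ, rfl⟩
  rw [h2, Real.sInf_smul_of_nonneg hc, smul_eq_mul]

/-- a series with nonzero constant coefficient has order zero and initial exponent zero -/
theorem isIni_zero_of_constantCoeff {w₁ w₂ : Fin n → ℝ} (h₁ : ∀ i, 0 ≤ w₁ i) (h₂ : ∀ i, 0 ≤ w₂ i)
    {f : MvPowerSeries (Fin n) ℂ} (hf : MvPowerSeries.coeff 0 f ≠ 0) :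
    IsIni (monoLT w₁ w₂) (f : (Fin n →₀ ℕ) → ℂ) 0 := by
  exact ⟨hf, fun δ _ => not_monoLT_zero h₁ h₂ δ⟩

/-- **perturbation estimate**: `u` old weights, `w₂ ≥ 0` the indicator of the tangential variables, `w₃ ≥ 0` arbitrary.
If `γ` is the initial exponent of `f` for `monoLT u w₂` then for every `ε ≥ 0`
`wOrd (u + ε w₂ + w₃) f ≥ wdeg u γ + min (ε wdeg w₂ γ) gap`. -/
theorem wOrd_perturb {u w₂ w₃ : Fin n → ℝ} (hu : ∀ i, 0 ≤ u i) (h₂ : ∀ i, 0 ≤ w₂ i) (h₃ : ∀ i, 0 ≤ w₃ i)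
    {f : MvPowerSeries (Fin n) ℂ} {γ : Fin n →₀ ℕ} (h : IsIni (monoLT u w₂) (f : (Fin n →₀ ℕ) → ℂ) γ)
    {gap : ℝ} (hgap : ∀ δ : Fin n →₀ ℕ, wdeg u γ < wdeg u δ → wdeg u γ + gap ≤ wdeg u δ) {ε : ℝ} (hε : 0 ≤ ε) :
    wdeg u γ + min (ε * wdeg w₂ γ) gap ≤ wOrd (fun i => u i + ε * w₂ i + w₃ i) f := by
  have hf : f ≠ 0 := by
    rintro rfl
    exact h.1 rfl
  have hsplit : ∀ δ : Fin n →₀ ℕ, wdeg (fun i => u i + ε * w₂ i + w₃ i) δ
      = wdeg u δ + ε * wdeg w₂ δ + wdeg w₃ δ := by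
    intro δ
    unfold wdeg
    rw [Finset.mul_sum, ← Finset.sum_add_distrib, ← Finset.sum_add_distrib]
    exact Finset.sum_congr rfl fun i _ => by ring
  refine le_wOrd hf fun δ hδ => ?_
  rw [hsplit]
  have hn := h.2 δ hδ
  have h2δ : 0 ≤ wdeg w₂ δ := wdeg_nonneg h₂ δ
  have h3δ : 0 ≤ wdeg w₃ δ := wdeg_nonneg h₃ δ
  have hle : wdeg u γ ≤ wdeg u δ := by
    by_contra hlt
    exact hn (Or.inl (not_le.1 hlt))
  rcases hle.lt_or_eq with hlt | heq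
  · have h4 := hgap δ hlt
    have h5 : min (ε * wdeg w₂ γ) gap ≤ gap := min_le_right _ _
    have h6 : 0 ≤ ε * wdeg w₂ δ := mul_nonneg hε h2δ
    linarith
  · have h4 : wdeg w₂ γ ≤ wdeg w₂ δ := by
      by_contra hlt
      exact hn (Or.inr ⟨heq.symm, Or.inl (not_le.1 hlt)⟩)
    have h5 : min (ε * wdeg w₂ γ) gap ≤ ε * wdeg w₂ γ := min_le_left _ _
    have h6 : ε * wdeg w₂ γ ≤ ε * wdeg w₂ δ := mul_le_mul_of_nonneg_left h4 hε
    linarith

/-- splitting a sum over `Fin n` at an index -/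
theorem wordA_sum_split (i : Fin n) (f : Fin n → ℕ) :
    ∑ j, f j = ∑ j ∈ univ.filter (· < i), f j + f i + ∑ j ∈ univ.filter (i < ·), f j := by
  classical
  rw [← Finset.sum_filter_add_sum_filter_not univ (· < i), add_assoc]
  congr 1
  have : univ.filter (fun j => ¬ j < i) = insert i (univ.filter (i < ·)) := by
    ext j
    simp only [Finset.mem_filter, Finset.mem_univ, true_and, Finset.mem_insert, not_lt]
    exact le_iff_eq_or_lt.trans (or_congr eq_comm Iff.rfl)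
  rw [this, Finset.sum_insert (by simp)]

/-- on exponents of a fixed total degree the lexicographic order is induced by an integral weight vector -/
theorem lex_weight (D : ℕ) :
    ∃ w : Fin n → ℕ, ∀ γ δ : Fin n →₀ ℕ, (∑ i, γ i = D) → (∑ i, δ i = D) →
      toLex (γ : Fin n → ℕ) < toLex (δ : Fin n → ℕ) → ∑ i, w i * γ i < ∑ i, w i * δ i := by
  refine ⟨fun i => (D + 1) ^ (n - 1 - i.val), fun γ δ hγ _ hlt => ?_⟩
  obtain ⟨i, hj, hi⟩ := hlt
  have hj' : ∀ j, j < i → γ j = δ j := hj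
  have hi' : γ i < δ i := hi
  beta_reduce
  rw [wordA_sum_split i (fun j => (D + 1) ^ (n - 1 - j.val) * γ j),
    wordA_sum_split i (fun j => (D + 1) ^ (n - 1 - j.val) * δ j)]
  have e1 : ∑ j ∈ univ.filter (· < i), (D + 1) ^ (n - 1 - j.val) * γ j =
      ∑ j ∈ univ.filter (· < i), (D + 1) ^ (n - 1 - j.val) * δ j :=
    Finset.sum_congr rfl fun j hj => by rw [hj' j (Finset.mem_filter.1 hj).2]
  rw [e1]
  set W := (D + 1) ^ (n - 1 - i.val) with hW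
  have hWpos : 0 < W := by positivity
  -- the tail
  have htail : ∑ j ∈ univ.filter (i < ·), (D + 1) ^ (n - 1 - j.val) * γ j < W := by
    have h1 : (D + 1) * ∑ j ∈ univ.filter (i < ·), (D + 1) ^ (n - 1 - j.val) * γ j ≤
        W * ∑ j ∈ univ.filter (i < ·), γ j := by
      rw [Finset.mul_sum, Finset.mul_sum]
      refine Finset.sum_le_sum fun j hj => ?_
      have hij : i.val < j.val := (Finset.mem_filter.1 hj).2
      have hjn := j.isLt
      rw [← mul_assoc, ← pow_succ']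
      refine Nat.mul_le_mul_right _ ?_
      exact Nat.pow_le_pow_right (by omega) (by omega)
    have h2 : ∑ j ∈ univ.filter (i < ·), γ j ≤ D := by
      rw [← hγ]
      exact Finset.sum_le_sum_of_subset (Finset.filter_subset _ _)
    have h3 : (D + 1) * ∑ j ∈ univ.filter (i < ·), (D + 1) ^ (n - 1 - j.val) * γ j < (D + 1) * W := by
      calc _ ≤ W * ∑ j ∈ univ.filter (i < ·), γ j := h1
        _ ≤ W * D := Nat.mul_le_mul_left _ h2
        _ < (D + 1) * W := by nlinarith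
    exact Nat.lt_of_mul_lt_mul_left h3
  have h4 : W * γ i + W ≤ W * δ i := by
    calc W * γ i + W = W * (γ i + 1) := by ring
      _ ≤ W * δ i := Nat.mul_le_mul_left _ hi'
  have h5 : 0 ≤ ∑ j ∈ univ.filter (i < ·), (D + 1) ^ (n - 1 - j.val) * δ j := Nat.zero_le _
  omega

end Claimed.Agent.R242

/-! equation lemmas of this file, cited once here (rule 6) -/
namespace Claimed.Agent.R242

theorem r242_eqcite_Cvx_WOrd : True := by
  have := @Claimed.Agent.R242.monoLT.eq_1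
  have := @Claimed.Agent.R242.wdeg.eq_1
  have := @Claimed.Agent.R242.wordAKey.eq_1
  have := @Claimed.Agent.R242.wOrd.eq_1
  trivial

end Claimed.Agent.R242
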