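/-
R242 / Cvx / Basis : filtrations of a finite dimensional space by a valuation-like function, adapted bases, sorting and
Gram-Schmidt.   Framework free.   Architect: helper100.

`ν : V → ℝ` is only looked at on nonzero vectors.  `IsFilt ν` : ν(c v) = ν(v), ν(v+w) ≥ min.
-/
import Mathlib

set_option autoImplicit false

namespace Claimed.Agent.R242

open Module Finset

section

variable {k V : Type*} [Field k] [AddCommGroup V] [Module k V]

/-- valuation-like function on the nonzero vectors of a vector space -/
structure IsFilt (k : Type*) {V : Type*} [Field k] [AddCommGroup V] [Module k V] (ν : V → ℝ) : Prop where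
  smul : ∀ (c : k) (v : V), c ≠ 0 → ν (c • v) = ν v
  add : ∀ v w : V, v ≠ 0 → w ≠ 0 → v + w ≠ 0 → min (ν v) (ν w) ≤ ν (v + w)

/-- the step `{v : v = 0 ∨ lam ≤ ν v}` of the filtration -/
def filtGE (k : Type*) {V : Type*} [Field k] [AddCommGroup V] [Module k V] {ν : V → ℝ} (h : IsFilt k ν) (lam : ℝ) :
    Submodule k V where
  carrier := {v | v = 0 ∨ lam ≤ ν v}
  add_mem' := by
    intro a b ha hb
    rcases ha with rfl | ha
    · rw [zero_add]; exact hb
    rcases hb with rfl | hb
    · rw [add_zero]; exact Or.inr ha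
    by_cases ha0 : a = 0
    · rw [ha0, zero_add]; exact Or.inr hb
    by_cases hb0 : b = 0
    · rw [hb0, add_zero]; exact Or.inr ha
    by_cases hab : a + b = 0
    · exact Or.inl hab
    · exact Or.inr ((le_min ha hb).trans (h.add a b ha0 hb0 hab))
  zero_mem' := Or.inl rfl
  smul_mem' := by
    intro c v hv
    by_cases hc : c = 0
    · left; rw [hc, zero_smul]
    rcases hv with rfl | hv
    · left; rw [smul_zero]
    · right
      change lam ≤ ν (c • v)
      rw [h.smul c v hc]; exact hv

/-- the step `{v : v = 0 ∨ lam < ν v}` of the filtration -/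
def filtGT (k : Type*) {V : Type*} [Field k] [AddCommGroup V] [Module k V] {ν : V → ℝ} (h : IsFilt k ν) (lam : ℝ) :
    Submodule k V where
  carrier := {v | v = 0 ∨ lam < ν v}
  add_mem' := by
    intro a b ha hb
    rcases ha with rfl | ha
    · rw [zero_add]; exact hb
    rcases hb with rfl | hb
    · rw [add_zero]; exact Or.inr ha
    by_cases ha0 : a = 0
    · rw [ha0, zero_add]; exact Or.inr hb
    by_cases hb0 : b = 0
    · rw [hb0, add_zero]; exact Or.inr ha
    by_cases hab : a + b = 0
    · exact Or.inl hab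
    · exact Or.inr ((lt_min ha hb).trans_le (h.add a b ha0 hb0 hab))
  zero_mem' := Or.inl rfl
  smul_mem' := by
    intro c v hv
    by_cases hc : c = 0
    · left; rw [hc, zero_smul]
    rcases hv with rfl | hv
    · left; rw [smul_zero]
    · right
      change lam < ν (c • v)
      rw [h.smul c v hc]; exact hv

/-- value of a nonzero linear combination -/
theorem IsFilt.le_sum {ν : V → ℝ} (h : IsFilt k ν) {κ : Type*} (s : Finset κ) (c : κ → k) (b : κ → V) (lam : ℝ)
    (hb : ∀ i ∈ s, c i ≠ 0 → lam ≤ ν (b i)) (hne : ∑ i ∈ s, c i • b i ≠ 0) : lam ≤ ν (∑ i ∈ s, c i • b i) := by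
  have hmem : ∑ i ∈ s, c i • b i ∈ filtGE k h lam := by
    refine Submodule.sum_mem _ fun i hi => ?_
    by_cases hc : c i = 0
    · rw [hc, zero_smul]; exact Submodule.zero_mem _
    · exact Submodule.smul_mem _ _ (Or.inr (hb i hi hc))
  rcases hmem with h0 | h1
  · exact absurd h0 hne
  · exact h1

/-- a basis is adapted to `ν` if the value of a combination is the least value that occurs -/
def IsAdapted {κ : Type*} [Fintype κ] (ν : V → ℝ) (b : Basis κ k V) : Prop :=
  ∀ c : κ → k, ∀ i, c i ≠ 0 → ν (∑ j, c j • b j) ≤ ν (b i)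

/-- comparison of two finite families of reals through their counting functions -/
theorem sum_antitone_le_of_count {κ κ' : Type*} [Fintype κ] [Fintype κ'] (hcard : Fintype.card κ = Fintype.card κ')
    (x : κ → ℝ) (y : κ' → ℝ)
    (hcount : ∀ lam : ℝ, (Finset.univ.filter fun i => lam ≤ y i).card ≤ (Finset.univ.filter fun i => lam ≤ x i).card)
    (φ : ℝ → ℝ) (hφ : Antitone φ) : ∑ i, φ (x i) ≤ ∑ i, φ (y i) := by
  classical
  -- Hall's theorem
  have hall : ∀ A : Finset κ', A.card ≤ (A.biUnion fun j => Finset.univ.filter fun i => y j ≤ x i).card := by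
    intro A
    rcases A.eq_empty_or_nonempty with rfl | hA
    · simp
    obtain ⟨j0, hj0, hmin⟩ := A.exists_min_image y hA
    have h1 : A ⊆ Finset.univ.filter fun j => y j0 ≤ y j := by
      intro j hj
      simp only [Finset.mem_filter, Finset.mem_univ, true_and]
      exact hmin j hj
    have h2 : (Finset.univ.filter fun i => y j0 ≤ x i) ⊆
        A.biUnion fun j => Finset.univ.filter fun i => y j ≤ x i := by
      intro i hi
      exact Finset.mem_biUnion.2 ⟨j0, hj0, hi⟩
    exact (Finset.card_le_card h1).trans ((hcount (y j0)).trans (Finset.card_le_card h2))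
  obtain ⟨f, hf, hfx⟩ := (Finset.all_card_le_biUnion_card_iff_exists_injective _).1 hall
  have hbij : Function.Bijective f := (Fintype.bijective_iff_injective_and_card f).2 ⟨hf, hcard.symm⟩
  rw [← (Equiv.ofBijective f hbij).sum_comp]
  refine Finset.sum_le_sum fun j _ => hφ ?_
  have := hfx j
  simp only [Finset.mem_filter, Finset.mem_univ, true_and] at this
  exact this

/-- **an adapted basis minimizes `∑ φ(ν(b_i))` for antitone `φ`** -/
theorem adapted_sum_le {κ κ' : Type*} [Fintype κ] [Fintype κ'] {ν : V → ℝ} (h : IsFilt k ν)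
    (b : Basis κ k V) (hb : IsAdapted ν b) (b' : Basis κ' k V) (φ : ℝ → ℝ) (hφ : Antitone φ) :
    ∑ i, φ (ν (b i)) ≤ ∑ i, φ (ν (b' i)) := by
  classical
  have : Module.Finite k V := Module.Finite.of_basis b
  refine sum_antitone_le_of_count ?_ (fun i => ν (b i)) (fun i => ν (b' i)) ?_ φ hφ
  · rw [← Module.finrank_eq_card_basis b, ← Module.finrank_eq_card_basis b']
  intro lam
  rw [← Fintype.card_subtype, ← Fintype.card_subtype]
  have hli : LinearIndependent k (fun j : {j // lam ≤ ν (b' j)} => b' j.1) :=
    b'.linearIndependent.comp _ Subtype.val_injective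
  rw [← finrank_span_eq_card hli]
  refine le_trans (Submodule.finrank_mono ?_)
    (finrank_range_le_card (R := k) (fun i : {i // lam ≤ ν (b i)} => b i.1))
  rw [Submodule.span_le]
  rintro _ ⟨j, rfl⟩
  -- `b' j` is a combination of the `b i` with `lam ≤ ν (b i)`
  have hrep : b' j.1 = ∑ i, b.repr (b' j.1) i • b i := (b.sum_repr _).symm
  change b' j.1 ∈ Submodule.span k _
  rw [hrep]
  refine Submodule.sum_mem _ fun i _ => ?_
  by_cases hc : b.repr (b' j.1) i = 0
  · rw [hc, zero_smul]; exact Submodule.zero_mem _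
  · refine Submodule.smul_mem _ _ (Submodule.subset_span ⟨⟨i, ?_⟩, rfl⟩)
    have h1 := hb (fun i => b.repr (b' j.1) i) i hc
    rw [← hrep] at h1
    exact j.2.trans h1

/-- at least `codim U` vectors of any basis lie outside a subspace `U` -/
theorem card_basis_not_mem_ge [FiniteDimensional k V] {κ : Type*} [Fintype κ] (b : Basis κ k V) (U : Submodule k V)
    [DecidablePred fun i => b i ∉ U] :
    finrank k V - finrank k U ≤ (Finset.univ.filter fun i => b i ∉ U).card := by
  classical
  have hli : LinearIndependent k (fun j : {j // b j ∈ U} => b j.1) :=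
    b.linearIndependent.comp _ Subtype.val_injective
  have h1 : Fintype.card {j // b j ∈ U} ≤ finrank k U := by
    rw [← finrank_span_eq_card hli]
    refine Submodule.finrank_mono ?_
    rw [Submodule.span_le]
    rintro _ ⟨j, rfl⟩
    exact j.2
  rw [Fintype.card_subtype] at h1
  have h2 : (Finset.univ.filter fun i => b i ∈ U).card + (Finset.univ.filter fun i => b i ∉ U).card =
      Fintype.card κ := by
    rw [Finset.card_filter_add_card_filter_not, Finset.card_univ]
  rw [Module.finrank_eq_card_basis b]
  omega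

end

section GS

open InnerProductSpace in
/-- **Sorting + Gram-Schmidt.**  `e` is a reference basis of a complex vector space, `b` any basis, `ν` a filtration function.
There is a unitary matrix `U` such that the basis `s_i = ∑_j U i j • e_j` satisfies: its values dominate, after a permutation,
those of `b`; consequently `∑ φ(ν(s_i)) ≤ ∑ φ(ν(b_i))` for antitone `φ`; moreover the values of `s` are antitone in `i`
up to the bound: `ν (s i) ≥ x i` where `x` is the decreasing rearrangement of `ν ∘ b`. -/
theorem exists_unitary_basis {V : Type*} [AddCommGroup V] [Module ℂ V] {N : ℕ} (e b : Basis (Fin N) ℂ V) {ν : V → ℝ}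
    (h : IsFilt ℂ ν) :
    ∃ U ∈ Matrix.unitaryGroup (Fin N) ℂ, ∃ π : Equiv.Perm (Fin N),
      (∀ i j : Fin N, i ≤ j → ν (b (π j)) ≤ ν (b (π i))) ∧
      ∀ i, ν (b (π i)) ≤ ν (∑ j, U i j • e j) := by
  classical
  -- sorting
  set π : Equiv.Perm (Fin N) := Tuple.sort (fun i => -ν (b i)) with hπ
  have hanti : ∀ i j : Fin N, i ≤ j → ν (b (π j)) ≤ ν (b (π i)) := by
    intro i j hij
    have := Tuple.monotone_sort (fun i => -ν (b i)) hij
    simp only [Function.comp_apply] at this
    linarith
  -- transport to the euclidean space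
  set T : V ≃ₗ[ℂ] EuclideanSpace ℂ (Fin N) :=
    e.equivFun.trans (WithLp.linearEquiv 2 ℂ (Fin N → ℂ)).symm with hT
  have hTsymm : ∀ x : EuclideanSpace ℂ (Fin N), T.symm x = ∑ j, x j • e j := by
    intro x
    rw [hT, LinearEquiv.trans_symm, LinearEquiv.trans_apply, Basis.equivFun_symm_apply]
    rfl
  set w : Fin N → EuclideanSpace ℂ (Fin N) := fun i => T (b (π i)) with hw
  have hli : LinearIndependent ℂ w :=
    (b.linearIndependent.comp π π.injective).map' T.toLinearMap (LinearEquiv.ker T)
  set o : Fin N → EuclideanSpace ℂ (Fin N) := gramSchmidtNormed ℂ w with ho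
  have hon : Orthonormal ℂ o := gramSchmidtNormed_orthonormal hli
  refine ⟨Matrix.of fun i j => o i j, ?_, π, hanti, ?_⟩
  · rw [Matrix.mem_unitaryGroup_iff]
    ext i k
    rw [Matrix.mul_apply, Matrix.one_apply]
    have h1 := (orthonormal_iff_ite.1 hon) k i
    rw [EuclideanSpace.inner_eq_star_dotProduct] at h1
    have h2 : ∑ j, (Matrix.of fun i j => o i j) i j * (star (Matrix.of fun i j => o i j)) j k =
        (o i).ofLp ⬝ᵥ star (o k).ofLp := rfl
    rw [h2, h1]
    by_cases hik : i = k
    · rw [if_pos hik, if_pos hik.symm]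
    · rw [if_neg hik, if_neg (Ne.symm hik)]
  · intro i
    simp only [Matrix.of_apply]
    rw [← hTsymm (o i)]
    have hspan : Submodule.span ℂ (w '' Set.Iic i) ≤
        (filtGE ℂ h (ν (b (π i)))).comap T.symm.toLinearMap := by
      rw [Submodule.span_le]
      rintro _ ⟨k, hk, rfl⟩
      change T.symm (T (b (π k))) ∈ filtGE ℂ h (ν (b (π i)))
      rw [LinearEquiv.symm_apply_apply]
      exact Or.inr (hanti k i hk)
    have hmem : o i ∈ Submodule.span ℂ (w '' Set.Iic i) :=
      Submodule.smul_mem _ _ (gramSchmidt_mem_span ℂ w le_rfl)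
    have hne : T.symm (o i) ≠ 0 := by
      intro h0
      have h1 : o i = 0 := by
        have := congrArg T h0
        rwa [LinearEquiv.apply_symm_apply, map_zero] at this
      have h2 := hon.1 i
      rw [h1, norm_zero] at h2
      exact zero_ne_one h2
    rcases hspan hmem with h0 | h1
    · exact absurd h0 hne
    · exact h1

/-- rows of a unitary matrix applied to a basis form a basis -/
theorem unitary_rows_basis {V : Type*} [AddCommGroup V] [Module ℂ V] {N : ℕ} (e : Basis (Fin N) ℂ V)
    (U : Matrix (Fin N) (Fin N) ℂ) (hU : U ∈ Matrix.unitaryGroup (Fin N) ℂ) :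
    ∃ s : Basis (Fin N) ℂ V, ∀ i, s i = ∑ j, U i j • e j := by
  have hdet : IsUnit U.transpose.det := by
    rw [Matrix.det_transpose]
    exact Matrix.isUnit_det_of_right_inverse (Matrix.mem_unitaryGroup_iff.1 hU)
  refine ⟨e.map (Matrix.toLinearEquiv e U.transpose hdet), fun i => ?_⟩
  rw [Basis.map_apply]
  change Matrix.toLin e e U.transpose (e i) = _
  rw [Matrix.toLin_self]
  rfl

/-- sequential compactness of the unitary group -/
theorem unitary_subseq {N : ℕ} (U : ℕ → Matrix (Fin N) (Fin N) ℂ) (hU : ∀ k, U k ∈ Matrix.unitaryGroup (Fin N) ℂ) :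
    ∃ U0 ∈ Matrix.unitaryGroup (Fin N) ℂ, ∃ φ : ℕ → ℕ, StrictMono φ ∧
      Filter.Tendsto (fun k => U (φ k)) Filter.atTop (nhds U0) := by
  have hbox : IsCompact (Set.univ.pi fun _ : Fin N => Set.univ.pi fun _ : Fin N => Metric.closedBall (0 : ℂ) 1) :=
    isCompact_univ_pi fun _ => isCompact_univ_pi fun _ => isCompact_closedBall 0 1
  have hclosed : IsClosed {A : Matrix (Fin N) (Fin N) ℂ | A * star A = 1} :=
    isClosed_eq (continuous_id.matrix_mul continuous_id.matrix_conjTranspose) continuous_const
  have hcomp : IsCompact {A : Matrix (Fin N) (Fin N) ℂ | A * star A = 1} := by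
    refine IsCompact.of_isClosed_subset hbox hclosed ?_
    intro A hA i _ j _
    rw [mem_closedBall_zero_iff]
    exact entry_norm_bound_of_unitary (Matrix.mem_unitaryGroup_iff.2 hA) i j
  have : FirstCountableTopology (Matrix (Fin N) (Fin N) ℂ) :=
    inferInstanceAs (FirstCountableTopology (Fin N → Fin N → ℂ))
  obtain ⟨U0, hU0, φ, hφ, hlim⟩ := hcomp.tendsto_subseq fun k => Matrix.mem_unitaryGroup_iff.1 (hU k)
  exact ⟨U0, Matrix.mem_unitaryGroup_iff.2 hU0, φ, hφ, hlim⟩

end GS

end Claimed.Agent.R242
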