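/-
R242 / Cvx / Bathtub : counting lattice points of `ℕ^d` by total degree.  Framework free.  Architect: helper100.

 * `lat_card_simplex` : #{γ ∈ ℕ^n : |γ| ≤ r} = choose (r+n) n.
 * `lat_layer_cake`   : ∑_{γ∈A} |γ| ≥ ∑_{r<R} (#A - choose (r+n) n + #{γ ∈ Z : |γ| ≤ r})  for A disjoint from Z.
 * `bathtub_trunc`    : paper (5.22) slice-wise, with the total degree TRUNCATED at a level `Lam ≥ b = (d! #A)^(1/d)`:
                          ∑_{β∈A} (min(|β|, Lam) + d) ≥ d/((d+1) d!) b^(d+1).
      PURELY DISCRETE PROOF: min(|β|,Lam) ≥ #{r ∈ ℕ : r < |β|, r+1 ≤ Lam}; #{β ∈ A : |β| ≤ r} ≤ choose (r+d) d ≤ (r+d)^d/d!;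
      with b^d = d! #A :  ∑_{j=d}^{⌊b⌋} (b^d - j^d) ≥ (d/(d+1)) b^(d+1) - d b^d
      (termwise b^d - j^d ≥ "∫_j^{j+1} (b^d - s^d) ds", i.e. (j+1)^(d+1) - j^(d+1) ≥ (d+1) j^d; last term with b - ⌊b⌋ ≤ 1);
      the case b < d is trivial because then  d/((d+1) d!) b^(d+1) = (d/(d+1)) b #A ≤ d #A.
 * `bathtub`          : the untruncated corollary  (d/(d+1)) b #A ≤ ∑ (|β| + d).
-/
import Mathlib

set_option autoImplicit false

namespace Claimed.Agent.R242

open Finset

/-- number of lattice points of the simplex -/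
theorem lat_card_simplex (n r : ℕ) :
    ((Fintype.piFinset fun _ : Fin n => Finset.range (r + 1)).filter fun γ => ∑ i, γ i ≤ r).card
      = (r + n).choose n := by
  classical
  rw [← Nat.sum_range_multichoose,
    Finset.card_eq_sum_card_fiberwise (f := fun γ : Fin n → ℕ => ∑ i, γ i)
      (t := Finset.range (r + 1))]
  · apply Finset.sum_congr rfl
    intro i hi
    have hi' : i ≤ r := Nat.lt_succ_iff.mp (Finset.mem_range.mp hi)
    have hc : n.multichoose i = ((Finset.univ : Finset (Fin n)).finsuppAntidiag i).card := by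
      rw [Finset.card_finsuppAntidiag_nat_eq_multichoose, Finset.card_fin]
    rw [hc]
    refine Finset.card_equiv Finsupp.equivFunOnFinite.symm (fun γ => ?_)
    simp only [Finset.mem_filter, Fintype.mem_piFinset, Finset.mem_range,
      Finset.mem_finsuppAntidiag, Finset.subset_univ, and_true]
    constructor
    · rintro ⟨_, h⟩
      simpa using h
    · intro h
      have h' : ∑ a, γ a = i := by simpa using h
      refine ⟨⟨fun a => ?_, h'.le.trans hi'⟩, h'⟩
      have := Finset.single_le_sum (f := γ) (fun _ _ => Nat.zero_le _) (Finset.mem_univ a)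
      omega
  · intro γ hγ
    have := (Finset.mem_filter.mp hγ).2
    simp only [Finset.coe_range, Set.mem_Iio]
    omega

/-- a finite set of lattice points has at most `choose (r+n) n` points of total degree `≤ r` -/
theorem lat_card_le_choose (n r : ℕ) (A : Finset (Fin n → ℕ)) :
    (A.filter fun γ => ∑ i, γ i ≤ r).card ≤ (r + n).choose n := by
  rw [← lat_card_simplex n r]
  apply Finset.card_le_card
  intro β hβ
  have hβ' := (Finset.mem_filter.mp hβ).2
  refine Finset.mem_filter.mpr ⟨Fintype.mem_piFinset.mpr fun a => ?_, hβ'⟩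
  have := Finset.single_le_sum (f := β) (fun _ _ => Nat.zero_le _) (Finset.mem_univ a)
  rw [Finset.mem_range]
  omega

/-- layer cake lower bound for the sum of total degrees of a finite set of lattice points that avoids `Z` -/
theorem lat_layer_cake (n : ℕ) (A Z : Finset (Fin n → ℕ)) (hAZ : Disjoint A Z) (R : ℕ) :
    ∑ r ∈ Finset.range R, ((A.card : ℝ) - ((r + n).choose n : ℝ)
        + ((Z.filter fun γ => ∑ i, γ i ≤ r).card : ℝ))
      ≤ ∑ γ ∈ A, ∑ i, (γ i : ℝ) := by
  classical
  have stepC : ∀ r ∈ Finset.range R, ((A.card : ℝ) - ((r + n).choose n : ℝ)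
        + ((Z.filter fun γ => ∑ i, γ i ≤ r).card : ℝ))
      ≤ ((A.filter fun γ => r < ∑ i, γ i).card : ℝ) := by
    intro r _
    have h1 := Finset.card_filter_add_card_filter_not (s := A) (fun γ => r < ∑ i, γ i)
    have h3 : (A.filter fun γ => ¬ r < ∑ i, γ i) = A.filter fun γ => ∑ i, γ i ≤ r := by
      apply Finset.filter_congr
      intro β _
      exact not_lt
    rw [h3] at h1
    have h2 := lat_card_le_choose n r (A ∪ Z)
    rw [Finset.filter_union, Finset.card_union_of_disjoint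
      (Finset.disjoint_filter_filter hAZ)] at h2
    have h4 : ((A.filter fun γ => r < ∑ i, γ i).card : ℝ)
        + ((A.filter fun γ => ∑ i, γ i ≤ r).card : ℝ) = A.card := by exact_mod_cast h1
    have h5 : ((A.filter fun γ => ∑ i, γ i ≤ r).card : ℝ)
        + ((Z.filter fun γ => ∑ i, γ i ≤ r).card : ℝ) ≤ ((r + n).choose n : ℝ) := by
      exact_mod_cast h2
    linarith
  have stepB : ∑ γ ∈ A, (((Finset.range R).filter fun r => r < ∑ i, γ i).card : ℝ)
      = ∑ r ∈ Finset.range R, ((A.filter fun γ => r < ∑ i, γ i).card : ℝ) := by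
    simp only [Finset.card_filter, Nat.cast_sum]
    exact Finset.sum_comm
  have stepA : ∀ γ ∈ A, (((Finset.range R).filter fun r => r < ∑ i, γ i).card : ℝ)
      ≤ ∑ i, (γ i : ℝ) := by
    intro γ _
    have : ((Finset.range R).filter fun r => r < ∑ i, γ i).card
        ≤ (Finset.range (∑ i, γ i)).card := by
      apply Finset.card_le_card
      intro j hj
      exact Finset.mem_range.mpr (Finset.mem_filter.mp hj).2
    rw [Finset.card_range] at this
    exact_mod_cast this
  calc _ ≤ ∑ r ∈ Finset.range R, ((A.filter fun γ => r < ∑ i, γ i).card : ℝ) :=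
        Finset.sum_le_sum stepC
    _ = ∑ γ ∈ A, (((Finset.range R).filter fun r => r < ∑ i, γ i).card : ℝ) := stepB.symm
    _ ≤ _ := Finset.sum_le_sum stepA

/-- tangent line inequality for powers -/
theorem bath_pow_tangent (n : ℕ) (x y : ℝ) (hx : 0 ≤ x) (hy : 0 ≤ y) :
    x ^ (n + 1) + (n + 1) * x ^ n * y ≤ (x + y) ^ (n + 1) := by
  induction n with
  | zero => simp
  | succ n ih =>
    have h1 : (x + y) ^ (n + 1 + 1) = (x + y) ^ (n + 1) * (x + y) := pow_succ _ _
    rw [h1]
    have h2 : (x ^ (n + 1) + (n + 1) * x ^ n * y) * (x + y) ≤ (x + y) ^ (n + 1) * (x + y) :=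
      mul_le_mul_of_nonneg_right ih (by positivity)
    refine le_trans ?_ h2
    have h3 : 0 ≤ ((n : ℝ) + 1) * x ^ n * y * y := by positivity
    have h4 : (x ^ (n + 1) + ((n : ℝ) + 1) * x ^ n * y) * (x + y)
        = x ^ (n + 1 + 1) + (((n + 1 : ℕ) : ℝ) + 1) * x ^ (n + 1) * y + ((n : ℝ) + 1) * x ^ n * y * y := by
      push_cast; ring
    rw [h4]
    linarith

/-- points of `A` of shifted degree at most `j` -/
theorem bath_card_le (d : ℕ) (A : Finset (Fin d → ℕ)) (j : ℕ) :
    ((A.filter fun β => d + ∑ i, β i ≤ j).card : ℝ) ≤ (j : ℝ) ^ d / d.factorial := by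
  refine le_trans ?_ (Nat.choose_le_pow_div d j)
  norm_cast
  by_cases hj : d ≤ j
  · have h := lat_card_le_choose d (j - d) A
    rw [Nat.sub_add_cancel hj] at h
    refine le_trans (Finset.card_le_card ?_) h
    intro β hβ
    have hβ' := Finset.mem_filter.mp hβ
    exact Finset.mem_filter.mpr ⟨hβ'.1, by omega⟩
  · have : A.filter (fun β => d + ∑ i, β i ≤ j) = ∅ := by
      apply Finset.filter_eq_empty_iff.mpr
      intro β _
      omega
    rw [this]
    simp

/-- lower Riemann sum -/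
theorem bath_sum_ge (d : ℕ) (c : ℝ) (K : ℕ) :
    c * K - (K : ℝ) ^ (d + 1) / (d + 1) ≤ ∑ j ∈ Finset.range K, (c - (j : ℝ) ^ d) := by
  induction K with
  | zero => simp
  | succ K ih =>
    rw [Finset.sum_range_succ]
    have h := bath_pow_tangent d (K : ℝ) 1 (Nat.cast_nonneg K) zero_le_one
    have hd : (0 : ℝ) < (d : ℝ) + 1 := by positivity
    have h2 : (K : ℝ) ^ (d + 1) / (d + 1) + (K : ℝ) ^ d ≤ ((K : ℝ) + 1) ^ (d + 1) / (d + 1) := by
      rw [div_add' _ _ _ hd.ne', div_le_div_iff_of_pos_right hd]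
      linarith
    push_cast
    linarith

/-- the analytic part of the bathtub bound -/
theorem bath_sum_floor (d : ℕ) (b : ℝ) (hb : 0 ≤ b) :
    (d : ℝ) / (d + 1) * b ^ (d + 1) ≤ ∑ j ∈ Finset.range (⌊b⌋₊ + 1), (b ^ d - (j : ℝ) ^ d) := by
  set J := ⌊b⌋₊ with hJ
  have hJb : (J : ℝ) ≤ b := Nat.floor_le hb
  have hbJ : b < (J : ℝ) + 1 := Nat.lt_floor_add_one b
  rw [Finset.sum_range_succ]
  have h1 := bath_sum_ge d (b ^ d) J
  have h2 := bath_pow_tangent d (J : ℝ) (b - J) (Nat.cast_nonneg J) (by linarith)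
  rw [add_sub_cancel] at h2
  have hd : (0 : ℝ) < (d : ℝ) + 1 := by positivity
  have h3 : (J : ℝ) ^ d ≤ b ^ d := pow_le_pow_left₀ (Nat.cast_nonneg J) hJb d
  have h4 : 0 ≤ (b ^ d - (J : ℝ) ^ d) * (1 - (b - J)) :=
    mul_nonneg (by linarith) (by linarith)
  have h5 : (J : ℝ) ^ (d + 1) / (d + 1) + (J : ℝ) ^ d * (b - J) ≤ b ^ (d + 1) / (d + 1) := by
    rw [div_add' _ _ _ hd.ne', div_le_div_iff_of_pos_right hd]
    linarith
  have h6 : (d : ℝ) / (d + 1) * b ^ (d + 1) = b ^ d * b - b ^ (d + 1) / (d + 1) := by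
    field_simp
    ring
  rw [h6]
  nlinarith

/-- **bathtub bound with truncation**: `b = (d! #A)^(1/d) ≤ Lam`. -/
theorem bathtub_trunc (d : ℕ) (hd : 1 ≤ d) (A : Finset (Fin d → ℕ)) (Lam : ℝ)
    (hLam : ((d.factorial : ℝ) * A.card) ^ (1 / (d : ℝ)) ≤ Lam) :
    (d : ℝ) / ((d + 1) * d.factorial) * (((d.factorial : ℝ) * A.card) ^ (1 / (d : ℝ))) ^ (d + 1)
      ≤ ∑ β ∈ A, (min (∑ i, (β i : ℝ)) Lam + d) := by
  classical
  have hd0 : (0 : ℝ) < d := by exact_mod_cast hd
  have hd1 : (1 : ℝ) ≤ d := by exact_mod_cast hd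
  have hf : (0 : ℝ) < d.factorial := by exact_mod_cast d.factorial_pos
  set b : ℝ := ((d.factorial : ℝ) * A.card) ^ (1 / (d : ℝ)) with hbdef
  have hb0 : 0 ≤ b := Real.rpow_nonneg (by positivity) _
  have hbd : b ^ d = (d.factorial : ℝ) * A.card := by
    rw [hbdef, ← Real.rpow_natCast, ← Real.rpow_mul (by positivity), one_div,
      inv_mul_cancel₀ hd0.ne', Real.rpow_one]
  set J := ⌊b⌋₊ with hJ
  have hJb : (J : ℝ) ≤ b := Nat.floor_le hb0
  -- Step A
  have stepA : ∀ β ∈ A, (((Finset.range (J + 1)).filter fun j => j < d + ∑ i, β i).card : ℝ)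
      ≤ min (∑ i, (β i : ℝ)) Lam + d := by
    intro β _
    rcases le_total (∑ i, (β i : ℝ)) Lam with h | h
    · rw [min_eq_left h]
      have : ((Finset.range (J + 1)).filter fun j => j < d + ∑ i, β i).card
          ≤ (Finset.range (d + ∑ i, β i)).card := by
        apply Finset.card_le_card
        intro j hj
        exact Finset.mem_range.mpr (Finset.mem_filter.mp hj).2
      rw [Finset.card_range] at this
      have h2 : (((Finset.range (J + 1)).filter fun j => j < d + ∑ i, β i).card : ℝ)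
          ≤ ((d + ∑ i, β i : ℕ) : ℝ) := by exact_mod_cast this
      push_cast at h2
      linarith
    · rw [min_eq_right h]
      have : ((Finset.range (J + 1)).filter fun j => j < d + ∑ i, β i).card ≤ J + 1 := by
        refine (Finset.card_filter_le _ _).trans ?_
        rw [Finset.card_range]
      have h2 : (((Finset.range (J + 1)).filter fun j => j < d + ∑ i, β i).card : ℝ)
          ≤ ((J + 1 : ℕ) : ℝ) := by exact_mod_cast this
      push_cast at h2
      linarith
  -- Step B
  have stepB : ∑ β ∈ A, (((Finset.range (J + 1)).filter fun j => j < d + ∑ i, β i).card : ℝ)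
      = ∑ j ∈ Finset.range (J + 1), ((A.filter fun β => j < d + ∑ i, β i).card : ℝ) := by
    simp only [Finset.card_filter, Nat.cast_sum]
    exact Finset.sum_comm
  -- Step C
  have stepC : ∀ j ∈ Finset.range (J + 1), (b ^ d - (j : ℝ) ^ d) / d.factorial
      ≤ ((A.filter fun β => j < d + ∑ i, β i).card : ℝ) := by
    intro j _
    have h1 := Finset.card_filter_add_card_filter_not (s := A) (fun β => j < d + ∑ i, β i)
    have h2 := bath_card_le d A j
    have h3 : (A.filter fun β => ¬ j < d + ∑ i, β i) = A.filter fun β => d + ∑ i, β i ≤ j := by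
      apply Finset.filter_congr
      intro β _
      exact not_lt
    rw [h3] at h1
    have h4 : ((A.filter fun β => j < d + ∑ i, β i).card : ℝ)
        + ((A.filter fun β => d + ∑ i, β i ≤ j).card : ℝ) = A.card := by exact_mod_cast h1
    rw [hbd, sub_div, mul_div_cancel_left₀ _ hf.ne']
    linarith
  have stepD := bath_sum_floor d b hb0
  calc (d : ℝ) / ((d + 1) * d.factorial) * b ^ (d + 1)
      = ((d : ℝ) / (d + 1) * b ^ (d + 1)) / d.factorial := by field_simp
    _ ≤ (∑ j ∈ Finset.range (J + 1), (b ^ d - (j : ℝ) ^ d)) / d.factorial :=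
        (div_le_div_iff_of_pos_right hf).mpr stepD
    _ = ∑ j ∈ Finset.range (J + 1), (b ^ d - (j : ℝ) ^ d) / d.factorial := Finset.sum_div _ _ _
    _ ≤ ∑ j ∈ Finset.range (J + 1), ((A.filter fun β => j < d + ∑ i, β i).card : ℝ) :=
        Finset.sum_le_sum stepC
    _ = ∑ β ∈ A, (((Finset.range (J + 1)).filter fun j => j < d + ∑ i, β i).card : ℝ) := stepB.symm
    _ ≤ ∑ β ∈ A, (min (∑ i, (β i : ℝ)) Lam + d) := Finset.sum_le_sum stepA

/-- untruncated form -/
theorem bathtub (d : ℕ) (hd : 1 ≤ d) (A : Finset (Fin d → ℕ)) :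
    (d : ℝ) / (d + 1) * ((d.factorial : ℝ) * A.card) ^ (1 / (d : ℝ)) * A.card
      ≤ ∑ β ∈ A, ((∑ i, (β i : ℝ)) + d) := by
  have hd0 : (0 : ℝ) < d := by exact_mod_cast hd
  have hf : (0 : ℝ) < d.factorial := by exact_mod_cast d.factorial_pos
  have h := bathtub_trunc d hd A _ le_rfl
  set b : ℝ := ((d.factorial : ℝ) * A.card) ^ (1 / (d : ℝ)) with hbdef
  have hbd : b ^ d = (d.factorial : ℝ) * A.card := by
    rw [hbdef, ← Real.rpow_natCast, ← Real.rpow_mul (by positivity), one_div,
      inv_mul_cancel₀ hd0.ne', Real.rpow_one]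
  have e : (d : ℝ) / ((d + 1) * d.factorial) * b ^ (d + 1) = (d : ℝ) / (d + 1) * b * A.card := by
    rw [pow_succ, hbd]
    field_simp
  rw [e] at h
  refine h.trans (Finset.sum_le_sum fun β _ => ?_)
  have := min_le_left (∑ i, (β i : ℝ)) b
  linarith

end Claimed.Agent.R242
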