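/-
R242 / Cvx / Lattice : the lattice point part of Proposition 3.2 (ordinary-order alternative) and the multiplicity bound,
framework free.    Architect: helper100.

`H j ⊂ ℕ^n` = initial exponents (total degree first) of the sections of `jL` at the point `x`.
Known: `H i + H j ⊆ H (i+j)`,  `(n! #H_j)^(1/n) ≥ j - C` (ONLY this lower bound: volume ≥ 1),  `0 ∈ H b` for `b ≥ b₀`.
ALTERNATIVE: either the mean total degree satisfies  liminf (1/(j #H_j)) ∑_{γ ∈ H_j} |γ| > n/(n+1),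
or there is a "good configuration": `h ≥ 1`, `n h < D < (n+1) h` and for every coordinate `k` an exponent
`β ∈ H D` with `|β| = n h` and `β_i < h` for all `i ≠ k`.
(The good configuration gives a section of the adjoint bundle not vanishing at `x`: analytic side.)

PROOF PLAN (all elementary):
 1. `lat_box_hit`: let `Bx = ∏ (lo_i, hi_i)`, 0 ≤ lo_i < hi_i, ∑ hi_i < 1, Z = ℕ^n ∩ j•Bx (≥ c₁ j^n points, all of degree ≤ (∑ hi) j).
    If `H j` avoids Z, `lat_layer_cake` with R = j gives, with N = #H_j ≥ N₀ = (j-C)^n/n!,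
       mean ≥ (1/j) (R - (1/N) ∑_{r<R} (choose (r+n) n - #Z_r)) ≥ (1/j) (R - (1/N₀) ∑_{r<R} (choose (r+n) n - #Z_r))
    (the bracket is increasing in N because choose (r+n) n - #Z_r ≥ 0);  ∑_{r<R} choose (r+n) n = choose (R+n) (n+1) ≤ (R+n)^(n+1)/(n+1)!,
    ∑_{r<R} #Z_r ≥ #Z (1 - ∑ hi) j - #Z.   Hence mean ≥ n/(n+1) + n! c₁ (1 - ∑ hi) - o(1).
 2. for each k choose a box inside the region  O_k = {u : n u_i < |u| (i ≠ k), n/(n+1) < |u| < 1};
    if the conclusion fails, infinitely many j have all boxes hit: γ^k ∈ H j with γ^k/j ∈ O_k (same j for all k).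
 3. `lat_config_of_points`: g_k = |γ^k|, G = M ∏ g_k (M > b₀), β^k = (n G/g_k) • γ^k ∈ H (j n G/g_k), |β^k| = n G =: n h.
    Pad with 0 ∈ H b (b ≥ b₀) to the common degree D = max_k (j n G/g_k) + b₀.
-/
import Mathlib
import Claimed.Agent.R242.Cvx.Bathtub

set_option autoImplicit false

namespace Claimed.Agent.R242

open Filter Topology Finset

/-- hockey stick -/
theorem lat_sum_choose (n j : ℕ) :
    ∑ r ∈ Finset.range j, (r + n).choose n = (j + n).choose (n + 1) := by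
  induction j with
  | zero => simp
  | succ j ih =>
    rw [Finset.sum_range_succ, ih]
    have e : j + 1 + n = (j + n) + 1 := by ring
    rw [e, Nat.choose_succ_succ, add_comm]

theorem lat_cast_sub_le (a b : ℕ) : (a : ℝ) - b ≤ ((a - b : ℕ) : ℝ) := by
  rcases le_total b a with h | h
  · rw [Nat.cast_sub h]
  · rw [Nat.sub_eq_zero_of_le h]
    have : (a : ℝ) ≤ b := by exact_mod_cast h
    simp only [Nat.cast_zero]
    linarith

/-- the lattice points of the dilated box `j • ∏ (lo_i, hi_i)` -/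
noncomputable def latBox {n : ℕ} (lo hi : Fin n → ℝ) (j : ℕ) : Finset (Fin n → ℕ) :=
  Fintype.piFinset fun i => Finset.Ico (⌊lo i * j⌋₊ + 1) ⌈hi i * j⌉₊

theorem mem_latBox {n : ℕ} {lo hi : Fin n → ℝ} (hlo : ∀ i, 0 ≤ lo i) {j : ℕ} {γ : Fin n → ℕ} :
    γ ∈ latBox lo hi j ↔ ∀ i, lo i * j < γ i ∧ (γ i : ℝ) < hi i * j := by
  unfold latBox
  rw [Fintype.mem_piFinset]
  refine forall_congr' fun i => ?_
  rw [Finset.mem_Ico, Nat.succ_le_iff, Nat.floor_lt (mul_nonneg (hlo i) (Nat.cast_nonneg j)), Nat.lt_ceil]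

theorem latBox_card_ge {n : ℕ} {lo hi : Fin n → ℝ} {j : ℕ} (hlo : ∀ i, 0 ≤ lo i) (w : Fin n → ℝ)
    (hw0 : ∀ i, 0 ≤ w i) (hw : ∀ i, w i ≤ (hi i - lo i) * j - 1) :
    ∏ i, w i ≤ ((latBox lo hi j).card : ℝ) := by
  unfold latBox
  rw [Fintype.card_piFinset]
  push_cast
  refine Finset.prod_le_prod (fun i _ => hw0 i) fun i _ => ?_
  rw [Nat.card_Ico]
  have h1 : (⌊lo i * j⌋₊ : ℝ) ≤ lo i * j := Nat.floor_le (mul_nonneg (hlo i) (Nat.cast_nonneg j))
  have h2 : hi i * j ≤ (⌈hi i * j⌉₊ : ℝ) := Nat.le_ceil _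
  have h3 := lat_cast_sub_le ⌈hi i * j⌉₊ (⌊lo i * j⌋₊ + 1)
  push_cast at h3
  have h4 := hw i
  linarith

/-- the layers of the box -/
theorem latBox_layers {n : ℕ} {lo hi : Fin n → ℝ} (hlo : ∀ i, 0 ≤ lo i) (j : ℕ) :
    ((latBox lo hi j).card : ℝ) * ((j : ℝ) - (⌈(∑ i, hi i) * j⌉₊ : ℝ)) ≤
      ∑ r ∈ Finset.range j, (((latBox lo hi j).filter fun γ => ∑ i, γ i ≤ r).card : ℝ) := by
  classical
  set Z := latBox lo hi j with hZ
  set a : ℕ := ⌈(∑ i, hi i) * j⌉₊ with ha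
  have hsub : Finset.Ico a j ⊆ Finset.range j := fun r hr =>
    Finset.mem_range.2 (Finset.mem_Ico.1 hr).2
  have hfull : ∀ r ∈ Finset.Ico a j, ((Z.filter fun γ => ∑ i, γ i ≤ r).card : ℝ) = Z.card := by
    intro r hr
    have hr' : (∑ i, hi i) * j ≤ r := Nat.ceil_le.1 (Finset.mem_Ico.1 hr).1
    congr 1
    rw [Finset.filter_true_of_mem]
    intro γ hγ
    have h1 := (mem_latBox hlo).1 hγ
    have h2 : ((∑ i, γ i : ℕ) : ℝ) ≤ r := by
      push_cast
      calc ∑ i, (γ i : ℝ) ≤ ∑ i, hi i * j := Finset.sum_le_sum fun i _ => (h1 i).2.le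
        _ = (∑ i, hi i) * j := by rw [Finset.sum_mul]
        _ ≤ r := hr'
    exact_mod_cast h2
  calc (Z.card : ℝ) * ((j : ℝ) - (a : ℝ)) ≤ (Z.card : ℝ) * ((j - a : ℕ) : ℝ) :=
        mul_le_mul_of_nonneg_left (lat_cast_sub_le j a) (Nat.cast_nonneg _)
    _ = ∑ r ∈ Finset.Ico a j, (Z.card : ℝ) := by
        rw [Finset.sum_const, Nat.card_Ico, nsmul_eq_mul, mul_comm]
    _ = ∑ r ∈ Finset.Ico a j, ((Z.filter fun γ => ∑ i, γ i ≤ r).card : ℝ) :=
        (Finset.sum_congr rfl hfull).symm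
    _ ≤ _ := Finset.sum_le_sum_of_subset_of_nonneg hsub fun _ _ _ => Nat.cast_nonneg _

/-- box avoidance costs a fixed amount of mean degree -/
theorem lat_box_hit (n : ℕ) (hn : 1 ≤ n) (H : ℕ → Finset (Fin n → ℕ)) (C : ℝ) (j₁ : ℕ)
    (hcard : ∀ j : ℕ, j₁ ≤ j → (j : ℝ) - C ≤ ((n.factorial : ℝ) * (H j).card) ^ (1 / (n : ℝ)))
    (lo hi : Fin n → ℝ) (hlo : ∀ i, 0 ≤ lo i) (hlh : ∀ i, lo i < hi i) (hsum : ∑ i, hi i < 1) :
    ∃ ε : ℝ, 0 < ε ∧ ∀ᶠ j : ℕ in atTop,
      (∀ γ ∈ H j, ¬ ∀ i, lo i * j < γ i ∧ (γ i : ℝ) < hi i * j) →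
        (n : ℝ) / (n + 1) + ε ≤ (∑ γ ∈ H j, ∑ i, (γ i : ℝ)) / (j * (H j).card) := by
  classical
  set s : ℝ := ∑ i, hi i with hs
  have hs0 : 0 ≤ s := Finset.sum_nonneg fun i _ => (hlo i).trans (hlh i).le
  set w : Fin n → ℝ := fun i => (hi i - lo i) / 2 with hw
  have hwpos : ∀ i, 0 < w i := fun i => half_pos (sub_pos.2 (hlh i))
  set c₁ : ℝ := ∏ i, w i with hc₁
  have hc₁pos : 0 < c₁ := Finset.prod_pos fun i _ => hwpos i
  set nf : ℝ := (n.factorial : ℝ) with hnf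
  have hnfpos : 0 < nf := Nat.cast_pos.2 n.factorial_pos
  have hn1 : (0 : ℝ) < (n : ℝ) + 1 := by positivity
  set ε₀ : ℝ := nf * c₁ * (1 - s) with hε₀
  have hε₀pos : 0 < ε₀ := mul_pos (mul_pos hnfpos hc₁pos) (by linarith)
  set ε : ℝ := min (ε₀ / 2) (1 / (2 * ((n : ℝ) + 1))) with hε
  have hεpos : 0 < ε := lt_min (by positivity) (by positivity)
  have hε1 : ε < ε₀ := lt_of_le_of_lt (min_le_left _ _) (by linarith)
  have hε2 : ε < 1 / ((n : ℝ) + 1) := by
    refine lt_of_le_of_lt (min_le_right _ _) ?_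
    rw [div_lt_div_iff₀ (by positivity) hn1]
    linarith
  set κ : ℝ := 1 / ((n : ℝ) + 1) - ε with hκ
  have hκpos : 0 < κ := by linarith
  -- the continuity argument
  have hLc : Continuous fun x : ℝ => (1 + n * x) ^ (n + 1) / ((n : ℝ) + 1) - nf * c₁ * ((1 - s) - x) := by
    fun_prop
  have hRc : Continuous fun x : ℝ => κ * (1 - C * x) ^ n := by fun_prop
  have hev : ∀ᶠ x in 𝓝 (0 : ℝ),
      (1 + n * x) ^ (n + 1) / ((n : ℝ) + 1) - nf * c₁ * ((1 - s) - x) < κ * (1 - C * x) ^ n := by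
    refine (hLc.tendsto 0).eventually_lt (hRc.tendsto 0) ?_
    simp only [mul_zero, add_zero, one_pow, sub_zero, mul_one]
    linarith
  have hevj := (tendsto_inv_atTop_nhds_zero_nat (𝕜 := ℝ)).eventually hev
  have hcast : Tendsto (fun j : ℕ => (j : ℝ)) atTop atTop := tendsto_natCast_atTop_atTop
  have hevC : ∀ᶠ j : ℕ in atTop, C < j := hcast.eventually_gt_atTop C
  have hevw : ∀ᶠ j : ℕ in atTop, ∀ i, 1 ≤ w i * j :=
    Filter.eventually_all.2 fun i => (hcast.const_mul_atTop (hwpos i)).eventually_ge_atTop 1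
  have hevs : ∀ᶠ j : ℕ in atTop, 1 ≤ (1 - s) * j :=
    (hcast.const_mul_atTop (by linarith : 0 < 1 - s)).eventually_ge_atTop 1
  refine ⟨ε, hεpos, ?_⟩
  filter_upwards [hevj, eventually_ge_atTop j₁, eventually_ge_atTop 1, hevC, hevw, hevs] with
    j hLR hj1 hj0 hCj hwj hsj havoid
  have hjpos : (0 : ℝ) < j := by exact_mod_cast hj0
  set N : ℝ := ((H j).card : ℝ) with hN
  set Z := latBox lo hi j with hZ
  set T : ℝ := ∑ γ ∈ H j, ∑ i, (γ i : ℝ) with hT
  have hdisj : Disjoint (H j) Z :=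
    Finset.disjoint_left.2 fun γ hγ hZ' => havoid γ hγ ((mem_latBox hlo).1 hZ')
  have hcake := lat_layer_cake n (H j) Z hdisj j
  rw [Finset.sum_add_distrib, Finset.sum_sub_distrib, Finset.sum_const, Finset.card_range,
    nsmul_eq_mul] at hcake
  -- the binomial sum
  have hbin : ∑ r ∈ Finset.range j, ((r + n).choose n : ℝ) ≤ ((j : ℝ) + n) ^ (n + 1) / (((n : ℝ) + 1) * nf) := by
    have h1 : ∑ r ∈ Finset.range j, ((r + n).choose n : ℝ) = ((j + n).choose (n + 1) : ℝ) := by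
      exact_mod_cast lat_sum_choose n j
    rw [h1]
    have h2 := Nat.choose_le_pow_div (α := ℝ) (n + 1) (j + n)
    rw [Nat.factorial_succ] at h2
    push_cast at h2
    exact h2
  -- the box
  have hZcard : c₁ * (j : ℝ) ^ n ≤ (Z.card : ℝ) := by
    have h1 := latBox_card_ge (lo := lo) (hi := hi) (j := j) hlo (fun i => w i * j)
      (fun i => mul_nonneg (hwpos i).le hjpos.le) (fun i => by
        have := hwj i
        have e : (hi i - lo i) * j = 2 * (w i * j) := by simp only [hw]; ring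
        rw [e]
        linarith)
    rw [Finset.prod_mul_distrib, Finset.prod_const, Finset.card_univ, Fintype.card_fin] at h1
    exact h1
  have hlay := latBox_layers (lo := lo) (hi := hi) hlo j
  have hceil : ((⌈s * j⌉₊ : ℕ) : ℝ) < s * j + 1 := Nat.ceil_lt_add_one (mul_nonneg hs0 hjpos.le)
  have hZsum : c₁ * (j : ℝ) ^ n * ((1 - s) * j - 1) ≤
      ∑ r ∈ Finset.range j, ((Z.filter fun γ => ∑ i, γ i ≤ r).card : ℝ) := by
    refine le_trans ?_ hlay
    have h1 : (1 - s) * j - 1 ≤ (j : ℝ) - ((⌈s * j⌉₊ : ℕ) : ℝ) := by linarith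
    exact mul_le_mul hZcard h1 (by linarith) (Nat.cast_nonneg _)
  -- the cardinality of `H j`
  have hn0 : (0 : ℝ) < n := by exact_mod_cast hn
  have hNlow : ((j : ℝ) - C) ^ n ≤ nf * N := by
    have h1 := pow_le_pow_left₀ (by linarith : 0 ≤ (j : ℝ) - C) (hcard j hj1) n
    have h2 : ((nf * N) ^ (1 / (n : ℝ))) ^ n = nf * N := by
      rw [← Real.rpow_natCast, ← Real.rpow_mul (by positivity), one_div, inv_mul_cancel₀ hn0.ne',
        Real.rpow_one]
    rwa [h2] at h1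
  have hNpos : 0 < N := by
    have h1 : 0 < ((j : ℝ) - C) ^ n := pow_pos (by linarith) n
    have h2 : 0 < nf * N := lt_of_lt_of_le h1 hNlow
    exact (pos_iff_pos_of_mul_pos h2).1 hnfpos
  -- rescaling of the limit inequality
  have e1 : (j : ℝ) ^ (n + 1) * (1 + n * (j : ℝ)⁻¹) ^ (n + 1) = ((j : ℝ) + n) ^ (n + 1) := by
    rw [← mul_pow]
    congr 1
    field_simp
  have e2 : (j : ℝ) ^ n * (1 - C * (j : ℝ)⁻¹) ^ n = ((j : ℝ) - C) ^ n := by
    rw [← mul_pow]
    congr 1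
    field_simp
  have e3 : (j : ℝ) ^ (n + 1) * ((1 - s) - (j : ℝ)⁻¹) = (j : ℝ) ^ n * ((1 - s) * j - 1) := by
    rw [pow_succ]
    field_simp
  have hkey : ((j : ℝ) + n) ^ (n + 1) / ((n : ℝ) + 1) - nf * c₁ * ((j : ℝ) ^ n * ((1 - s) * j - 1)) <
      κ * (j * ((j : ℝ) - C) ^ n) := by
    have h1 := mul_lt_mul_of_pos_left hLR (pow_pos hjpos (n + 1))
    have h2 : (j : ℝ) ^ (n + 1) * ((1 + n * (j : ℝ)⁻¹) ^ (n + 1) / ((n : ℝ) + 1) - nf * c₁ * ((1 - s) - (j : ℝ)⁻¹))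
        = ((j : ℝ) + n) ^ (n + 1) / ((n : ℝ) + 1) - nf * c₁ * ((j : ℝ) ^ n * ((1 - s) * j - 1)) := by
      rw [← e1, ← e3]
      ring
    have h3 : (j : ℝ) ^ (n + 1) * (κ * (1 - C * (j : ℝ)⁻¹) ^ n) = κ * (j * ((j : ℝ) - C) ^ n) := by
      rw [← e2, pow_succ]
      ring
    rwa [h2, h3] at h1
  have hkey2 : ((j : ℝ) + n) ^ (n + 1) / (((n : ℝ) + 1) * nf) - c₁ * (j : ℝ) ^ n * ((1 - s) * j - 1) ≤
      κ * (j * N) := by
    have h1 : κ * (j * ((j : ℝ) - C) ^ n) ≤ κ * (j * (nf * N)) :=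
      mul_le_mul_of_nonneg_left (mul_le_mul_of_nonneg_left hNlow hjpos.le) hκpos.le
    have h2 : ((j : ℝ) + n) ^ (n + 1) / (((n : ℝ) + 1) * nf) - c₁ * (j : ℝ) ^ n * ((1 - s) * j - 1)
        = (((j : ℝ) + n) ^ (n + 1) / ((n : ℝ) + 1) - nf * c₁ * ((j : ℝ) ^ n * ((1 - s) * j - 1))) / nf := by
      field_simp
    rw [h2, div_le_iff₀ hnfpos]
    calc _ ≤ κ * (j * ((j : ℝ) - C) ^ n) := hkey.le
      _ ≤ κ * (j * (nf * N)) := h1
      _ = κ * (j * N) * nf := by ring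
  rw [le_div_iff₀ (mul_pos hjpos hNpos)]
  have e4 : (n : ℝ) / ((n : ℝ) + 1) + ε = 1 - κ := by
    rw [hκ]
    field_simp
    ring
  rw [e4]
  nlinarith

/-- multiples in a graded semigroup -/
theorem lat_nsmul_mem {n : ℕ} (H : ℕ → Finset (Fin n → ℕ))
    (hadd : ∀ i j, ∀ a ∈ H i, ∀ b ∈ H j, a + b ∈ H (i + j)) {j : ℕ} {a : Fin n → ℕ} (ha : a ∈ H j) :
    ∀ m : ℕ, (m + 1) • a ∈ H ((m + 1) * j) := by
  intro m
  induction m with
  | zero => simpa using ha
  | succ m ih =>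
    have h := hadd _ _ _ ih _ ha
    have e1 : (m + 1 + 1) • a = (m + 1) • a + a := succ_nsmul a (m + 1)
    have e2 : (m + 1 + 1) * j = (m + 1) * j + j := Nat.succ_mul (m + 1) j
    rw [e1, e2]
    exact h

/-- from one degree `j` with points in the regions `O_k` to a good configuration (semigroup + padding) -/
theorem lat_config_of_points (n : ℕ) (hn : 1 ≤ n) (H : ℕ → Finset (Fin n → ℕ))
    (hadd : ∀ i j, ∀ a ∈ H i, ∀ b ∈ H j, a + b ∈ H (i + j))
    (b₀ : ℕ) (hzero : ∀ b, b₀ ≤ b → (0 : Fin n → ℕ) ∈ H b)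
    (j : ℕ) (hj : 1 ≤ j) (γ : Fin n → Fin n → ℕ) (hγ : ∀ k, γ k ∈ H j)
    (h1 : ∀ k i, i ≠ k → n * γ k i < ∑ i', γ k i')
    (h2 : ∀ k, n * j < (n + 1) * ∑ i', γ k i') (h3 : ∀ k, ∑ i', γ k i' < j) :
    ∃ h D : ℕ, 1 ≤ h ∧ n * h < D ∧ D < (n + 1) * h ∧
      ∀ k : Fin n, ∃ β ∈ H D, ∑ i, β i = n * h ∧ ∀ i, i ≠ k → β i < h := by
  classical
  set g : Fin n → ℕ := fun k => ∑ i', γ k i' with hg
  have hgpos : ∀ k, 1 ≤ g k := by
    intro k
    by_contra hcon
    have h0 : g k = 0 := by omega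
    have := h2 k
    rw [show ∑ i', γ k i' = g k from rfl, h0] at this
    omega
  set c : Fin n → ℕ := fun k => ∏ k' ∈ Finset.univ.erase k, g k' with hc
  have hcpos : ∀ k, 1 ≤ c k := fun k =>
    Nat.succ_le_of_lt (Finset.prod_pos (s := Finset.univ.erase k) (f := g) fun k' _ => hgpos k')
  set Pg : ℕ := ∏ k, g k with hPdef
  have hPk : ∀ k, Pg = g k * c k := fun k => (Finset.mul_prod_erase Finset.univ g (Finset.mem_univ k)).symm
  set M : ℕ := b₀ + 1 with hM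
  set G : ℕ := M * Pg with hG
  set m : Fin n → ℕ := fun k => n * M * c k with hm
  have hmpos : ∀ k, 1 ≤ m k := fun k =>
    Nat.mul_pos (Nat.mul_pos hn (Nat.succ_pos b₀)) (hcpos k)
  set d : Fin n → ℕ := fun k => m k * j with hd
  have hmg : ∀ k, m k * g k = n * G := by
    intro k
    simp only [hm, hG]
    rw [hPk k]
    ring
  -- (a)
  have ha : ∀ k, n * G < d k := by
    intro k
    rw [← hmg k]
    exact Nat.mul_lt_mul_of_pos_left (h3 k) (hmpos k)
  -- (b)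
  have hb : ∀ k, d k + b₀ < (n + 1) * G := by
    intro k
    have e1 : d k = (M * c k) * (n * j) := by simp only [hd, hm]; ring
    have e2 : (n + 1) * G = (M * c k) * ((n + 1) * g k) := by
      simp only [hG]
      rw [hPk k]
      ring
    have e3 : n * j + 1 ≤ (n + 1) * g k := h2 k
    have e4 : M ≤ M * c k := Nat.le_mul_of_pos_right M (hcpos k)
    have e5 : (M * c k) * (n * j + 1) ≤ (M * c k) * ((n + 1) * g k) := Nat.mul_le_mul_left _ e3
    rw [e1, e2]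
    rw [Nat.mul_add, Nat.mul_one] at e5
    omega
  have hne : (Finset.univ : Finset (Fin n)).Nonempty := ⟨⟨0, hn⟩, Finset.mem_univ _⟩
  obtain ⟨k0, -, hk0⟩ := Finset.exists_mem_eq_sup Finset.univ hne d
  have hle : ∀ k, d k ≤ d k0 := fun k => by
    rw [← hk0]
    exact Finset.le_sup (f := d) (Finset.mem_univ k)
  have hGpos : 1 ≤ G :=
    Nat.mul_pos (Nat.succ_pos b₀) (Finset.prod_pos (s := Finset.univ) (f := g) fun k' _ => hgpos k')
  refine ⟨G, d k0 + b₀, hGpos, lt_of_lt_of_le (ha k0) (Nat.le_add_right _ _), hb k0, fun k => ?_⟩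
  refine ⟨m k • γ k, ?_, ?_, ?_⟩
  · have h4 : m k • γ k ∈ H (m k * j) := by
      obtain ⟨m', hm'⟩ : ∃ m', m k = m' + 1 := ⟨m k - 1, by have := hmpos k; omega⟩
      rw [hm']
      exact lat_nsmul_mem H hadd (hγ k) m'
    have h5 := hadd _ _ _ h4 _ (hzero (d k0 + b₀ - d k) (by have := hle k; omega))
    rw [add_zero] at h5
    have e : m k * j + (d k0 + b₀ - d k) = d k0 + b₀ := by
      have := hle k
      show d k + (d k0 + b₀ - d k) = d k0 + b₀
      omega
    rwa [e] at h5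
  · simp only [Pi.smul_apply, smul_eq_mul, ← Finset.mul_sum]
    exact hmg k
  · intro i hi
    simp only [Pi.smul_apply, smul_eq_mul]
    have h6 : m k * (n * γ k i) < m k * g k := Nat.mul_lt_mul_of_pos_left (h1 k i hi) (hmpos k)
    rw [hmg k] at h6
    have h7 : n * (m k * γ k i) < n * G := by
      calc n * (m k * γ k i) = m k * (n * γ k i) := by ring
        _ < n * G := h6
    exact Nat.lt_of_mul_lt_mul_left h7

/-- **Proposition 3.2, combinatorial part.** -/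
theorem lattice_alternative (n : ℕ) (hn : 1 ≤ n) (H : ℕ → Finset (Fin n → ℕ))
    (hadd : ∀ i j, ∀ a ∈ H i, ∀ b ∈ H j, a + b ∈ H (i + j))
    (C : ℝ) (j₁ : ℕ)
    (hcard : ∀ j : ℕ, j₁ ≤ j → (j : ℝ) - C ≤ ((n.factorial : ℝ) * (H j).card) ^ (1 / (n : ℝ)))
    (b₀ : ℕ) (hzero : ∀ b, b₀ ≤ b → (0 : Fin n → ℕ) ∈ H b)
    (hno : ¬ ∃ h D : ℕ, 1 ≤ h ∧ n * h < D ∧ D < (n + 1) * h ∧
        ∀ k : Fin n, ∃ β ∈ H D, ∑ i, β i = n * h ∧ ∀ i, i ≠ k → β i < h) :
    ∃ ε : ℝ, 0 < ε ∧ ∀ᶠ j : ℕ in atTop,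
      (n : ℝ) / (n + 1) + ε ≤ (∑ γ ∈ H j, ∑ i, (γ i : ℝ)) / (j * (H j).card) := by
  classical
  have hn0 : (0 : ℝ) < n := by exact_mod_cast hn
  have hn1 : (0 : ℝ) < (n : ℝ) + 1 := by positivity
  have hn1' : (1 : ℝ) ≤ n := by exact_mod_cast hn
  set a : ℝ := (n : ℝ) / ((n : ℝ) + 1) with ha
  set δ : ℝ := 1 / (2 * n * ((n : ℝ) + 1)) with hδ
  have hδpos : 0 < δ := by positivity
  have hapos : 0 < a := by positivity
  set lo : Fin n → Fin n → ℝ := fun k i => if i = k then a else 0 with hlo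
  set hi : Fin n → Fin n → ℝ := fun k i => lo k i + δ with hhi
  have hlo0 : ∀ k i, 0 ≤ lo k i := fun k i => by
    simp only [hlo]
    split_ifs
    · exact hapos.le
    · exact le_rfl
  have hlh : ∀ k i, lo k i < hi k i := fun k i => by simp only [hhi]; linarith
  have hnδ : (n : ℝ) * δ = 1 / (2 * ((n : ℝ) + 1)) := by
    rw [hδ]
    field_simp
  have hsumhi : ∀ k, ∑ i, hi k i = a + n * δ := fun k => by
    simp only [hhi, hlo, Finset.sum_add_distrib, Finset.sum_ite_eq', Finset.mem_univ, if_true,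
      Finset.sum_const, Finset.card_univ, Fintype.card_fin, nsmul_eq_mul]
  have hsum1 : a + n * δ < 1 := by
    rw [hnδ, ha, div_add_div _ _ hn1.ne' (by positivity), div_lt_one (by positivity)]
    nlinarith
  have hbox := fun k => lat_box_hit n hn H C j₁ hcard (lo k) (hi k) (hlo0 k) (hlh k)
    (by rw [hsumhi k]; exact hsum1)
  choose εk hεk hev using hbox
  have hne : (Finset.univ : Finset (Fin n)).Nonempty := ⟨⟨0, hn⟩, Finset.mem_univ _⟩
  refine ⟨Finset.univ.inf' hne εk, (Finset.lt_inf'_iff hne).2 fun k _ => hεk k, ?_⟩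
  filter_upwards [Filter.eventually_all.2 hev, eventually_ge_atTop 1] with j hj hj1
  have hjpos : (0 : ℝ) < j := by exact_mod_cast hj1
  by_cases hall : ∀ k, ∃ γ ∈ H j, ∀ i, lo k i * j < γ i ∧ (γ i : ℝ) < hi k i * j
  · exfalso
    choose γ hγ hγbox using hall
    apply hno
    -- real estimates
    have hk_low : ∀ k, a * j < (γ k k : ℝ) := fun k => by
      have := (hγbox k k).1
      simpa only [hlo, if_true] using this
    have htot_low : ∀ k, a * j < ((∑ i', γ k i' : ℕ) : ℝ) := fun k => by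
      refine lt_of_lt_of_le (hk_low k) ?_
      exact_mod_cast Finset.single_le_sum (f := γ k) (fun _ _ => Nat.zero_le _) (Finset.mem_univ k)
    have htot_up : ∀ k, ((∑ i', γ k i' : ℕ) : ℝ) < j := fun k => by
      push_cast
      calc ∑ i', (γ k i' : ℝ) ≤ ∑ i', hi k i' * j := Finset.sum_le_sum fun i _ => (hγbox k i).2.le
        _ = (a + n * δ) * j := by rw [← Finset.sum_mul, hsumhi k]
        _ < 1 * j := mul_lt_mul_of_pos_right hsum1 hjpos
        _ = j := one_mul _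
    refine lat_config_of_points n hn H hadd b₀ hzero j hj1 γ hγ ?_ ?_ ?_
    · intro k i hik
      have h1 : (γ k i : ℝ) < δ * j := by
        have := (hγbox k i).2
        simpa only [hhi, hlo, if_neg hik, zero_add] using this
      have h2 : (n : ℝ) * (γ k i : ℝ) < ((∑ i', γ k i' : ℕ) : ℝ) := by
        have h3 : (n : ℝ) * (γ k i : ℝ) < n * (δ * j) := mul_lt_mul_of_pos_left h1 hn0
        have h4 : (n : ℝ) * (δ * j) ≤ a * j := by
          rw [← mul_assoc, hnδ]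
          refine mul_le_mul_of_nonneg_right ?_ hjpos.le
          rw [ha, div_le_div_iff₀ (by positivity) hn1]
          nlinarith
        linarith [htot_low k]
      exact_mod_cast h2
    · intro k
      have h1 := htot_low k
      have h2 : (n : ℝ) * j < ((n : ℝ) + 1) * ((∑ i', γ k i' : ℕ) : ℝ) := by
        have h3 := mul_lt_mul_of_pos_left h1 hn1
        have h4 : ((n : ℝ) + 1) * (a * j) = n * j := by
          rw [ha]
          field_simp
        rwa [h4] at h3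
      exact_mod_cast h2
    · intro k
      exact_mod_cast htot_up k
  · push Not at hall
    obtain ⟨k, hk⟩ := hall
    have h1 := hj k (fun γ hγ hcon => by
      obtain ⟨i, hi'⟩ := hk γ hγ
      exact absurd (hcon i).2 (not_lt.2 (hi' (hcon i).1)))
    have h2 : Finset.univ.inf' hne εk ≤ εk k := Finset.inf'_le _ (Finset.mem_univ k)
    linarith

/-- the counting step of the multiplicity bound -/
theorem lat_mult_count {n : ℕ} (H : ℕ → Finset (Fin n → ℕ))
    (hadd : ∀ i j, ∀ a ∈ H i, ∀ b ∈ H j, a + b ∈ H (i + j)) (k₀ b₀ : ℕ)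
    (hjet : ∀ q j : ℕ, k₀ * q + b₀ ≤ j → ∀ α : Fin n → ℕ, ∑ i, α i ≤ q → α ∈ H j)
    {j : ℕ} {γ : Fin n → ℕ} (hγ : γ ∈ H j) (q : ℕ) (hq : ∑ i, γ i = q + 1) (P : ℕ) :
    (P + 1) * (q + n).choose n ≤ (H (P * j + k₀ * q + b₀)).card := by
  classical
  set Sx : Finset (Fin n → ℕ) :=
    (Fintype.piFinset fun _ : Fin n => Finset.range (q + 1)).filter fun α => ∑ i, α i ≤ q with hSx
  have hcard : ((Finset.range (P + 1)) ×ˢ Sx).card = (P + 1) * (q + n).choose n := by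
    rw [Finset.card_product, Finset.card_range, hSx, lat_card_simplex]
  rw [← hcard]
  refine Finset.card_le_card_of_injOn (fun x => x.1 • γ + x.2) ?_ ?_
  · rintro ⟨p, α⟩ hx
    have hx' := Finset.mem_product.1 (Finset.mem_coe.1 hx)
    have hp : p ≤ P := Nat.lt_succ_iff.1 (Finset.mem_range.1 hx'.1)
    have hα : ∑ i, α i ≤ q := (Finset.mem_filter.1 hx'.2).2
    have hpj : p * j ≤ P * j := Nat.mul_le_mul_right j hp
    show p • γ + α ∈ H (P * j + k₀ * q + b₀)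
    rcases Nat.eq_zero_or_pos p with h0 | h0
    · subst h0
      rw [zero_smul, zero_add]
      exact hjet q _ (by omega) α hα
    · obtain ⟨p', rfl⟩ : ∃ p', p = p' + 1 := ⟨p - 1, by omega⟩
      have h1 := lat_nsmul_mem H hadd hγ p'
      have h2 := hjet q (P * j + k₀ * q + b₀ - (p' + 1) * j) (by omega) α hα
      have h3 := hadd _ _ _ h1 _ h2
      have e : (p' + 1) * j + (P * j + k₀ * q + b₀ - (p' + 1) * j) = P * j + k₀ * q + b₀ := by omega
      rwa [e] at h3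
  · rintro ⟨p, α⟩ hx ⟨p', α'⟩ hx' heq
    have hα : ∑ i, α i ≤ q := (Finset.mem_filter.1 (Finset.mem_product.1 (Finset.mem_coe.1 hx)).2).2
    have hα' : ∑ i, α' i ≤ q := (Finset.mem_filter.1 (Finset.mem_product.1 (Finset.mem_coe.1 hx')).2).2
    have heq' : p • γ + α = p' • γ + α' := heq
    have hdeg : p * (q + 1) + ∑ i, α i = p' * (q + 1) + ∑ i, α' i := by
      have := congrArg (fun β : Fin n → ℕ => ∑ i, β i) heq'
      simp only [Pi.add_apply, Pi.smul_apply, smul_eq_mul, Finset.sum_add_distrib, ← Finset.mul_sum, hq] at this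
      exact this
    have hpp : p = p' := by
      rcases lt_trichotomy p p' with h | h | h
      · have : (p + 1) * (q + 1) ≤ p' * (q + 1) := Nat.mul_le_mul_right _ h
        rw [Nat.succ_mul] at this
        omega
      · exact h
      · have : (p' + 1) * (q + 1) ≤ p * (q + 1) := Nat.mul_le_mul_right _ h
        rw [Nat.succ_mul] at this
        omega
    subst hpp
    have : α = α' := add_left_cancel heq'
    rw [this]

/-- **Multiplicity bound** (paper (3.1)) from the semigroup property, `#H_j ≤ C j^n` and the supply of jets.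
Proof: let γ ∈ H j, μ = |γ|, q = μ - 1.  The points pγ + α (0 ≤ p ≤ P, |α| ≤ q) are pairwise distinct (total degrees lie in the
disjoint intervals [pμ, pμ+q]) and lie in H D, D = P j + k₀ q + b₀.  So (P+1) choose (q+n) n ≤ CN D^n; take P = ⌈k₀ q / j⌉. -/
theorem lat_mult_bound (n : ℕ) (hn : 1 ≤ n) (CN : ℝ) (k₀ b₀ : ℕ) (hk₀ : 1 ≤ k₀) :
    ∃ Cm : ℝ, 0 < Cm ∧ ∀ H : ℕ → Finset (Fin n → ℕ),
      (∀ i j, ∀ a ∈ H i, ∀ b ∈ H j, a + b ∈ H (i + j)) →
      (∀ j : ℕ, 1 ≤ j → ((H j).card : ℝ) ≤ CN * (j : ℝ) ^ n) →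
      (∀ q j : ℕ, k₀ * q + b₀ ≤ j → ∀ α : Fin n → ℕ, ∑ i, α i ≤ q → α ∈ H j) →
      ∀ j : ℕ, 1 ≤ j → ∀ γ ∈ H j, ((∑ i, γ i : ℕ) : ℝ) ≤ Cm * j := by
  set K : ℝ := 2 * (k₀ : ℝ) + 1 + b₀ with hK
  have hKpos : 0 < K := by positivity
  refine ⟨1 + (n.factorial : ℝ) * |CN| * K ^ n, by positivity, ?_⟩
  intro H hadd hcard hjet j hj γ hγ
  have hj' : (1 : ℝ) ≤ j := by exact_mod_cast hj
  have hX : 0 ≤ (n.factorial : ℝ) * |CN| * K ^ n := by positivity
  set μ : ℕ := ∑ i, γ i with hμ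
  rcases le_or_gt μ j with hle | hlt
  · have h1 : (μ : ℝ) ≤ j := by exact_mod_cast hle
    nlinarith
  · obtain ⟨q, hq⟩ : ∃ q, μ = q + 1 := ⟨μ - 1, by omega⟩
    set P : ℕ := k₀ * q / j + 1 with hP
    have hPj1 : k₀ * q < P * j := by
      have := Nat.lt_div_mul_add (a := k₀ * q) (b := j) (by omega)
      rw [hP, Nat.succ_mul]
      exact this
    have hPj2 : P * j ≤ k₀ * q + j := by
      have := Nat.div_mul_le_self (k₀ * q) j
      rw [hP, Nat.succ_mul]
      omega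
    set D : ℕ := P * j + k₀ * q + b₀ with hD
    have hcount := lat_mult_count H hadd k₀ b₀ hjet hγ q hq P
    have hD1 : 1 ≤ D := by omega
    have hc := hcard D hD1
    have hμpos : (0 : ℝ) < μ := by exact_mod_cast (by omega : 0 < μ)
    -- upper bound for `D`
    have hkq : q ≤ k₀ * q := Nat.le_mul_of_pos_left q hk₀
    have hDle : (D : ℝ) ≤ K * μ := by
      have h1 : (D : ℝ) ≤ 2 * ((k₀ : ℝ) * q) + j + b₀ := by
        have : D ≤ 2 * (k₀ * q) + j + b₀ := by omega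
        exact_mod_cast this
      have h2 : (q : ℝ) ≤ μ := by exact_mod_cast (by omega : q ≤ μ)
      have h3 : (j : ℝ) ≤ μ := by exact_mod_cast hlt.le
      have h4 : (1 : ℝ) ≤ μ := by exact_mod_cast (by omega : 1 ≤ μ)
      have h5 : (k₀ : ℝ) * q ≤ k₀ * μ := mul_le_mul_of_nonneg_left h2 (Nat.cast_nonneg _)
      have h6 : (b₀ : ℝ) ≤ b₀ * μ := le_mul_of_one_le_right (Nat.cast_nonneg _) h4
      rw [hK]
      nlinarith
    -- lower bound for the binomial coefficient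
    have hch : (μ : ℝ) ^ n / n.factorial ≤ ((q + n).choose n : ℝ) := by
      have := Nat.pow_le_choose (α := ℝ) n (q + n)
      have e : q + n + 1 - n = μ := by omega
      rwa [e] at this
    -- `(P + 1) j ≥ μ`
    have hPμ : (μ : ℝ) ≤ ((P : ℝ) + 1) * j := by
      have : μ ≤ (P + 1) * j := by
        rw [Nat.succ_mul]
        omega
      exact_mod_cast this
    have hfac : (0 : ℝ) < n.factorial := by exact_mod_cast n.factorial_pos
    have hchain : ((P : ℝ) + 1) * ((μ : ℝ) ^ n / n.factorial) ≤ |CN| * (K * μ) ^ n := by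
      calc ((P : ℝ) + 1) * ((μ : ℝ) ^ n / n.factorial) ≤ ((P : ℝ) + 1) * ((q + n).choose n : ℝ) :=
            mul_le_mul_of_nonneg_left hch (by positivity)
        _ = (((P + 1) * (q + n).choose n : ℕ) : ℝ) := by push_cast; ring
        _ ≤ ((H D).card : ℝ) := by exact_mod_cast hcount
        _ ≤ CN * (D : ℝ) ^ n := hc
        _ ≤ |CN| * (D : ℝ) ^ n := mul_le_mul_of_nonneg_right (le_abs_self CN) (by positivity)
        _ ≤ |CN| * (K * μ) ^ n :=
            mul_le_mul_of_nonneg_left (pow_le_pow_left₀ (Nat.cast_nonneg _) hDle n) (abs_nonneg _)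
    have hμn : (0 : ℝ) < (μ : ℝ) ^ n := by positivity
    have hP1 : (P : ℝ) + 1 ≤ (n.factorial : ℝ) * |CN| * K ^ n := by
      rw [mul_pow] at hchain
      have h7 : ((P : ℝ) + 1) * (μ : ℝ) ^ n ≤ ((n.factorial : ℝ) * |CN| * K ^ n) * (μ : ℝ) ^ n := by
        have h8 := mul_le_mul_of_nonneg_left hchain hfac.le
        calc ((P : ℝ) + 1) * (μ : ℝ) ^ n
            = (n.factorial : ℝ) * (((P : ℝ) + 1) * ((μ : ℝ) ^ n / n.factorial)) := by field_simp
          _ ≤ (n.factorial : ℝ) * (|CN| * (K ^ n * (μ : ℝ) ^ n)) := h8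
          _ = _ := by ring
      exact le_of_mul_le_mul_right h7 hμn
    calc (μ : ℝ) ≤ ((P : ℝ) + 1) * j := hPμ
      _ ≤ ((n.factorial : ℝ) * |CN| * K ^ n) * j := mul_le_mul_of_nonneg_right hP1 (by positivity)
      _ ≤ (1 + (n.factorial : ℝ) * |CN| * K ^ n) * j := by nlinarith

end Claimed.Agent.R242
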