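/-
R242 / Cvx / LimitAux : helper lemmas for `center_limit` of `Cvx/Limit.lean` ((5.23)-(5.28) of the paper), framework free.
   CVX-Limit-B (#4692), helper278.

 * `ctlJ m l i = m (i+1) / l` (floor) : the chain of degrees, with its elementary estimates.
 * `ctl_exponent`, `ctl_point`        : pointwise lower bound `q_i Q_m ≤ Q_{j_i}`.
 * `ctl_assemble`, `ctl_core`         : the chain inequality at one fixed degree `m = ms k`.
 * `ctl_lam`, `ctl_final`             : passage to the limit, given a Riemann sum exceeding `θ / d`.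
-/
import Mathlib

set_option autoImplicit false

namespace Claimed.Agent.R242

open Filter Topology Finset Real

/-- the chain `j i = ⌊m (i+1) / l⌋`. -/
def ctlJ (m l i : ℕ) : ℕ := m * (i + 1) / l

theorem ctlJ_last (m l : ℕ) (hl : 1 ≤ l) : ctlJ m l (l - 1) = m := by
  unfold ctlJ
  rw [Nat.sub_add_cancel hl]
  exact Nat.mul_div_cancel _ (by omega)

theorem ctlJ_le (m l i : ℕ) : (ctlJ m l i : ℝ) ≤ (m : ℝ) * ((i : ℝ) + 1) / l := by
  unfold ctlJ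
  have h := @Nat.cast_div_le ℝ _ _ _ (m * (i + 1)) l
  push_cast at h
  exact h

theorem ctlJ_gt (m l i : ℕ) (hl : 1 ≤ l) : (m : ℝ) * ((i : ℝ) + 1) / l - 1 < (ctlJ m l i : ℝ) := by
  unfold ctlJ
  have h := Nat.lt_mul_div_succ (m * (i + 1)) (b := l) (by omega)
  have h' : ((m * (i + 1) : ℕ) : ℝ) < ((l * (m * (i + 1) / l + 1) : ℕ) : ℝ) := by exact_mod_cast h
  push_cast at h'
  have hl0 : (0 : ℝ) < l := by exact_mod_cast hl
  rw [sub_lt_iff_lt_add, div_lt_iff₀ hl0]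
  linarith

theorem ctlJ_mono (m l : ℕ) : Monotone (ctlJ m l) := by
  intro i j hij
  unfold ctlJ
  exact Nat.div_le_div_right (Nat.mul_le_mul_left _ (by omega))

theorem ctlJ_le_m (m l i : ℕ) (hl : 1 ≤ l) (hi : i ≤ l - 1) : ctlJ m l i ≤ m := by
  have h := ctlJ_mono m l hi
  rwa [ctlJ_last m l hl] at h

theorem ctlJ_ge (m l i b : ℕ) (hl : 1 ≤ l) (hb : l * b ≤ m) : b ≤ ctlJ m l i := by
  unfold ctlJ
  rw [Nat.le_div_iff_mul_le (by omega)]
  calc b * l = l * b := Nat.mul_comm _ _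
    _ ≤ m := hb
    _ ≤ m * (i + 1) := Nat.le_mul_of_pos_right _ (by omega)

theorem ctlJ_step (m l i : ℕ) (hl : 1 ≤ l) :
    (m : ℝ) / l - 1 < (ctlJ m l (i + 1) : ℝ) - (ctlJ m l i : ℝ) := by
  have h1 := ctlJ_gt m l (i + 1) hl
  have h2 := ctlJ_le m l i
  push_cast at h1
  have e : (m : ℝ) * ((i : ℝ) + 1 + 1) / l = (m : ℝ) * ((i : ℝ) + 1) / l + (m : ℝ) / l := by ring
  rw [e] at h1
  linarith

/-- the exponent inequality. -/
theorem ctl_exponent {N1 t aS a m s Jr : ℝ} (ht : 0 < t) (ht' : t < N1) (haS : 0 < aS) (ha : aS ≤ a)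
    (hm : 0 < m) (hs1 : s ≤ 1) (hJ : Jr ≤ m * s) :
    (1 - s) * aS / N1 + -a / t ≤ -(Jr * a) / (m * t) := by
  have hN : 0 < N1 := ht.trans ht'
  have ha0 : 0 < a := haS.trans_le ha
  have h1 : aS / N1 ≤ a / t := by
    rw [div_le_div_iff₀ hN ht]
    nlinarith
  have h2 : (1 - s) * (aS / N1) ≤ (1 - s) * (a / t) := mul_le_mul_of_nonneg_left h1 (by linarith)
  have h3 : Jr / m ≤ s := by
    rw [div_le_iff₀ hm]; linarith
  have h4 : 0 ≤ a / t := (div_pos ha0 ht).le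
  have h5 : (Jr / m) * (a / t) ≤ s * (a / t) := mul_le_mul_of_nonneg_right h3 h4
  have e1 : -(Jr * a) / (m * t) = -((Jr / m) * (a / t)) := by
    field_simp
  have e2 : (1 - s) * aS / N1 = (1 - s) * (aS / N1) := by ring
  have e3 : -a / t = -(a / t) := by ring
  rw [e1, e2, e3]
  nlinarith

/-- the pointwise inequality `q_i Q_m ≤ Q_{j_i}`. -/
theorem ctl_point {n : ℕ} {N1 t aS a c₁ c₂ lam m s Jr FJ Fm QJ : ℝ} (ht : 0 < t) (ht' : t < N1)
    (haS : 0 < aS) (ha : aS ≤ a) (hm : 0 < m) (hs1 : s ≤ 1) (hJ : Jr ≤ m * s) (hJ' : m * s - 1 ≤ Jr)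
    (hms : 0 ≤ m * s - 1) (hc₁ : 0 < c₁) (hlam : lam * c₂ = c₁) (hlam0 : 0 < lam)
    (hFJ : c₁ * Jr ^ n ≤ FJ) (hFm : Fm ≤ c₂ * m ^ n)
    (hQ : FJ * exp (-(Jr * a) / (m * t)) ≤ QJ) :
    lam * (s - 1 / m) ^ n * exp ((1 - s) * aS / N1) * (Fm * exp (-a / t)) ≤ QJ := by
  have hsm : 0 ≤ s - 1 / m := by
    have : s - 1 / m = (m * s - 1) / m := by field_simp
    rw [this]; positivity
  have hE := ctl_exponent ht ht' haS ha hm hs1 hJ
  have h1 : exp ((1 - s) * aS / N1) * exp (-a / t) ≤ exp (-(Jr * a) / (m * t)) := by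
    rw [← Real.exp_add]
    exact Real.exp_le_exp.2 hE
  have h2 : lam * (s - 1 / m) ^ n * Fm ≤ c₁ * Jr ^ n := by
    calc lam * (s - 1 / m) ^ n * Fm ≤ lam * (s - 1 / m) ^ n * (c₂ * m ^ n) :=
          mul_le_mul_of_nonneg_left hFm (by positivity)
      _ = (lam * c₂) * ((s - 1 / m) * m) ^ n := by rw [mul_pow]; ring
      _ = c₁ * (m * s - 1) ^ n := by
          rw [hlam]
          congr 2
          field_simp
      _ ≤ c₁ * Jr ^ n := mul_le_mul_of_nonneg_left (pow_le_pow_left₀ hms hJ' n) hc₁.le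
  have hJr0 : 0 ≤ Jr := hms.trans hJ'
  calc lam * (s - 1 / m) ^ n * exp ((1 - s) * aS / N1) * (Fm * exp (-a / t))
      = (lam * (s - 1 / m) ^ n * Fm) * (exp ((1 - s) * aS / N1) * exp (-a / t)) := by ring
    _ ≤ (c₁ * Jr ^ n) * exp (-(Jr * a) / (m * t)) :=
        mul_le_mul h2 h1 (by positivity) (by positivity)
    _ ≤ FJ * exp (-(Jr * a) / (m * t)) := mul_le_mul_of_nonneg_right hFJ (Real.exp_pos _).le
    _ ≤ QJ := hQ

/-- abstract assembly of the chain inequality. -/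
theorem ctl_assemble {L : ℕ} {d A m Qm T : ℝ} (hd : 0 ≤ d) (hA : 0 ≤ A) (hm : 0 < m) (hQm : 0 < Qm)
    (w q Qv : ℕ → ℝ) (hw : ∀ i < L, A ≤ w i) (hq0 : ∀ i < L, 0 ≤ q i)
    (hq : ∀ i < L, q i * Qm ≤ Qv i)
    (hch : d * ∑ i ∈ range L, w i * Qv i ≤ (T + d / m) * (m * Qm)) :
    d * (A / m) * ∑ i ∈ range L, q i - d / m ≤ T := by
  have h1 : A * Qm * ∑ i ∈ range L, q i ≤ ∑ i ∈ range L, w i * Qv i := by
    rw [Finset.mul_sum]
    apply Finset.sum_le_sum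
    intro i hi
    rw [mem_range] at hi
    calc A * Qm * q i = A * (q i * Qm) := by ring
      _ ≤ w i * Qv i := mul_le_mul (hw i hi) (hq i hi) (mul_nonneg (hq0 i hi) hQm.le)
          (hA.trans (hw i hi))
  have h2 : d * (A * Qm * ∑ i ∈ range L, q i) ≤ (T + d / m) * (m * Qm) :=
    (mul_le_mul_of_nonneg_left h1 hd).trans hch
  have h3 : (d * (A / m) * ∑ i ∈ range L, q i) * (m * Qm) ≤ (T + d / m) * (m * Qm) := by
    refine le_trans (le_of_eq ?_) h2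
    field_simp
  have h4 := le_of_mul_le_mul_right h3 (mul_pos hm hQm)
  linarith

/-- the estimate at a fixed degree `m = ms k`. -/
theorem ctl_core (n d : ℕ) (t aS : ℝ) (ht : 0 < t) (ht' : t < n + 1) (haS : 0 < aS)
    (Fs : ℕ → ℝ) (m l : ℕ) (hl : 2 ≤ l) (ak : ℝ) (hak : aS ≤ ak) (Qk : ℕ → ℝ) (Tk : ℝ)
    (hQm : Qk m = Fs m * exp (-ak / t)) (j₀ : ℕ)
    (hQj : ∀ j, j₀ ≤ j → j ≤ m → Fs j * exp (-((j : ℝ) * ak) / (m * t)) ≤ Qk j)
    (C' : ℝ) (H' : ℕ)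
    (hchain : ∀ (l : ℕ) (j : ℕ → ℕ), j l = m → (∀ i < l, j i + H' ≤ j (i + 1)) →
      (d : ℝ) * ∑ i ∈ Finset.range l, ((j (i + 1) : ℝ) - j i - C') * Qk (j i)
        ≤ (Tk + d / m) * (m * Qk m))
    (c₁ c₂ lam : ℝ) (hc₁ : 0 < c₁) (hlam : lam * c₂ = c₁) (hlam0 : 0 < lam)
    (j₁ : ℕ) (hj₁ : ∀ j, j₁ ≤ j → c₁ < Fs j / (j : ℝ) ^ n)
    (hFm : Fs m / (m : ℝ) ^ n < c₂) (hFm0 : 0 < Fs m)
    (hm1 : l * (max j₀ j₁ + 1) ≤ m) (hmA : (l : ℝ) * (1 + C') ≤ m) (hmH : (l : ℝ) * (1 + H') ≤ m) :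
    (d : ℝ) * (1 / l - (1 + C') * (1 / m)) * ∑ i ∈ range (l - 1),
        lam * (((1 + i : ℕ) : ℝ) / l - 1 / m) ^ n * exp ((1 - ((1 + i : ℕ) : ℝ) / l) * aS / (n + 1))
      - d * (1 / m) ≤ Tk := by
  have hl1 : 1 ≤ l := by omega
  have hl0 : (0 : ℝ) < l := by exact_mod_cast hl1
  have hlm : l ≤ m := by
    calc l = l * 1 := (Nat.mul_one l).symm
      _ ≤ l * (max j₀ j₁ + 1) := Nat.mul_le_mul_left _ (by omega)
      _ ≤ m := hm1
  have hm0 : 0 < m := by omega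
  have hmr : (0 : ℝ) < m := by exact_mod_cast hm0
  have hlmr : (l : ℝ) ≤ m := by exact_mod_cast hlm
  have hQm0 : 0 < Qk m := by rw [hQm]; exact mul_pos hFm0 (Real.exp_pos _)
  have hJb : ∀ i, max j₀ j₁ + 1 ≤ ctlJ m l i := fun i => ctlJ_ge m l i _ hl1 hm1
  -- the chain hypothesis
  have hsp : ∀ i < l - 1, ctlJ m l i + H' ≤ ctlJ m l (i + 1) := by
    intro i _
    have h1 := ctlJ_step m l i hl1
    have h2 : (1 : ℝ) + H' ≤ (m : ℝ) / l := by
      rw [le_div_iff₀ hl0]; linarith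
    have h3 : ((ctlJ m l i + H' : ℕ) : ℝ) < (ctlJ m l (i + 1) : ℝ) := by
      push_cast; linarith
    exact le_of_lt (by exact_mod_cast h3)
  have hch := hchain (l - 1) (ctlJ m l) (ctlJ_last m l hl1) hsp
  have hA : 0 ≤ (m : ℝ) / l - 1 - C' := by
    have : (1 : ℝ) + C' ≤ (m : ℝ) / l := by
      rw [le_div_iff₀ hl0]; linarith
    linarith
  have key := ctl_assemble (L := l - 1) (d := d) (A := (m : ℝ) / l - 1 - C') (m := m) (Qm := Qk m)
    (T := Tk) (Nat.cast_nonneg d) hA hmr hQm0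
    (fun i => (ctlJ m l (i + 1) : ℝ) - ctlJ m l i - C')
    (fun i => lam * (((1 + i : ℕ) : ℝ) / l - 1 / m) ^ n *
      exp ((1 - ((1 + i : ℕ) : ℝ) / l) * aS / (n + 1)))
    (fun i => Qk (ctlJ m l i))
    (fun i _ => by
      have := ctlJ_step m l i hl1
      linarith)
    (fun i _ => by
      have h1 : (0 : ℝ) ≤ ((1 + i : ℕ) : ℝ) / l - 1 / m := by
        have h2 : (1 : ℝ) / m ≤ 1 / l := one_div_le_one_div_of_le hl0 hlmr
        have h3 : (1 : ℝ) / l ≤ ((1 + i : ℕ) : ℝ) / l := by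
          apply div_le_div_of_nonneg_right _ hl0.le
          push_cast
          have : (0 : ℝ) ≤ i := Nat.cast_nonneg i
          linarith
        linarith
      positivity)
    (fun i hi => by
      have hi' : i ≤ l - 1 := by omega
      have hJm : ctlJ m l i ≤ m := ctlJ_le_m m l i hl1 hi'
      have hJ0 := hJb i
      have hJpos : (0 : ℝ) < (ctlJ m l i : ℝ) := by
        have : 0 < ctlJ m l i := by omega
        exact_mod_cast this
      have hcast : ((1 + i : ℕ) : ℝ) = (i : ℝ) + 1 := by push_cast; ring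
      have hs1 : ((1 + i : ℕ) : ℝ) / l ≤ 1 := by
        rw [div_le_one hl0]
        have : 1 + i ≤ l := by omega
        exact_mod_cast this
      have e1 : (m : ℝ) * (((1 + i : ℕ) : ℝ) / l) = (m : ℝ) * ((i : ℝ) + 1) / l := by
        rw [hcast]; ring
      rw [hQm]
      refine ctl_point (n := n) (N1 := (n : ℝ) + 1) (c₁ := c₁) (c₂ := c₂) (Jr := (ctlJ m l i : ℝ))
        (FJ := Fs (ctlJ m l i)) ht ht' haS hak hmr hs1 ?_ ?_ ?_ hc₁ hlam hlam0 ?_ ?_ ?_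
      · rw [e1]; exact ctlJ_le m l i
      · rw [e1]; exact (ctlJ_gt m l i hl1).le
      · rw [e1]
        have h5 : (1 : ℝ) ≤ (m : ℝ) * ((i : ℝ) + 1) / l := by
          rw [le_div_iff₀ hl0]
          have : (0 : ℝ) ≤ i := Nat.cast_nonneg i
          nlinarith
        linarith
      · have h6 := hj₁ (ctlJ m l i) (by omega)
        rw [lt_div_iff₀ (pow_pos hJpos n)] at h6
        exact h6.le
      · rw [div_lt_iff₀ (pow_pos hmr n)] at hFm
        exact hFm.le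
      · exact hQj (ctlJ m l i) (by omega) hJm)
    hch
  refine le_trans (le_of_eq ?_) key
  have e2 : ((m : ℝ) / l - 1 - C') / m = 1 / l - (1 + C') * (1 / m) := by
    field_simp
    ring
  rw [e2]
  ring


/-- choice of the factor `lam < 1`. -/
theorem ctl_lam {x R : ℝ} (hR0 : 0 < R) (hx : x < R) : ∃ lam : ℝ, 0 < lam ∧ lam < 1 ∧ x < lam * R := by
  have hu : x / R < 1 := by rw [div_lt_one hR0]; exact hx
  refine ⟨max (1 / 2) ((x / R + 1) / 2), lt_of_lt_of_le (by norm_num) (le_max_left _ _),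
    max_lt (by norm_num) (by linarith), ?_⟩
  have h1 : (x / R + 1) / 2 * R ≤ max (1 / 2) ((x / R + 1) / 2) * R :=
    mul_le_mul_of_nonneg_right (le_max_right _ _) hR0.le
  have h2 : x / R * R = x := by field_simp
  have h3 : x / R * R < (x / R + 1) / 2 * R := mul_lt_mul_of_pos_right (by linarith) hR0
  linarith

/-- the limiting argument, given the Riemann sum. -/
theorem ctl_final (n d : ℕ) (hd : 1 ≤ d) (t aS : ℝ) (ht : 0 < t) (ht' : t < n + 1) (haS : 0 < aS)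
    (Fs : ℕ → ℝ) (c : ℝ) (hc : 0 < c) (hliminf : ∀ c' < c, ∀ᶠ j : ℕ in atTop, c' < Fs j / (j : ℝ) ^ n)
    (ms : ℕ → ℕ) (hms : StrictMono ms) (hfm : Tendsto (fun k => Fs (ms k) / (ms k : ℝ) ^ n) atTop (𝓝 c))
    (a : ℕ → ℝ) (ha : ∀ k, aS ≤ a k) (Q : ℕ → ℕ → ℝ) (T : ℕ → ℝ)
    (hQm : ∀ k, Q k (ms k) = Fs (ms k) * exp (-(a k) / t))
    (j₀ : ℕ) (hQj : ∀ k j, j₀ ≤ j → j ≤ ms k → Fs j * exp (-((j : ℝ) * a k) / (ms k * t)) ≤ Q k j)
    (C' : ℝ) (H' : ℕ)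
    (hchain : ∀ k (l : ℕ) (j : ℕ → ℕ), j l = ms k → (∀ i < l, j i + H' ≤ j (i + 1)) →
      (d : ℝ) * ∑ i ∈ Finset.range l, ((j (i + 1) : ℝ) - j i - C') * Q k (j i)
        ≤ (T k + d / ms k) * (ms k * Q k (ms k)))
    (θ : ℝ) (l : ℕ) (hl : 2 ≤ l)
    (hR : θ / d < (1 / (l : ℝ)) * ∑ i ∈ range (l - 1),
      (((1 + i : ℕ) : ℝ) / l) ^ n * exp ((1 - ((1 + i : ℕ) : ℝ) / l) * aS / (n + 1))) :
    ∀ᶠ k in atTop, θ < T k := by
  have hd0 : (0 : ℝ) < d := by exact_mod_cast hd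
  have hl0 : (0 : ℝ) < l := by
    have : 0 < l := by omega
    exact_mod_cast this
  obtain ⟨R, hRdef⟩ : ∃ R : ℝ, R = (1 / (l : ℝ)) * ∑ i ∈ range (l - 1),
      (((1 + i : ℕ) : ℝ) / l) ^ n * exp ((1 - ((1 + i : ℕ) : ℝ) / l) * aS / (n + 1)) := ⟨_, rfl⟩
  rw [← hRdef] at hR
  have hR0 : 0 < R := by
    rw [hRdef]
    refine mul_pos (by positivity) (Finset.sum_pos (fun i _ => ?_) ⟨0, by rw [mem_range]; omega⟩)
    have : (0 : ℝ) < ((1 + i : ℕ) : ℝ) := by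
      have : 0 < 1 + i := by omega
      exact_mod_cast this
    positivity
  obtain ⟨lam, hlam0, hlam1, hlamR⟩ := ctl_lam hR0 hR
  obtain ⟨c₁, hc₁⟩ : ∃ c₁ : ℝ, c₁ = c * (1 + lam) / 2 := ⟨_, rfl⟩
  obtain ⟨c₂, hc₂⟩ : ∃ c₂ : ℝ, c₂ = c * (1 + lam) / (2 * lam) := ⟨_, rfl⟩
  have hc₁0 : 0 < c₁ := by rw [hc₁]; positivity
  have hc₁c : c₁ < c := by rw [hc₁]; nlinarith
  have hcc₂ : c < c₂ := by
    rw [hc₂, lt_div_iff₀ (by positivity)]
    nlinarith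
  have hlamc : lam * c₂ = c₁ := by
    rw [hc₁, hc₂]
    field_simp
  obtain ⟨j₁, hj₁⟩ := eventually_atTop.1 (hliminf c₁ hc₁c)
  have E1 : ∀ᶠ k in atTop, Fs (ms k) / (ms k : ℝ) ^ n < c₂ := hfm.eventually (gt_mem_nhds hcc₂)
  have E2 : ∀ᶠ k in atTop, 0 < Fs (ms k) / (ms k : ℝ) ^ n := hfm.eventually (lt_mem_nhds hc)
  have hmsT : Tendsto ms atTop atTop := hms.tendsto_atTop
  have hmsR : Tendsto (fun k => (ms k : ℝ)) atTop atTop := tendsto_natCast_atTop_atTop.comp hmsT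
  have E3 : ∀ᶠ k in atTop, l * (max j₀ j₁ + 1) ≤ ms k := hmsT.eventually_ge_atTop _
  have E4 : ∀ᶠ k in atTop, (l : ℝ) * (1 + C') ≤ ms k := hmsR.eventually_ge_atTop _
  have E5 : ∀ᶠ k in atTop, (l : ℝ) * (1 + H') ≤ ms k := hmsR.eventually_ge_atTop _
  obtain ⟨φ, hφ⟩ : ∃ φ : ℝ → ℝ, φ = fun x => (d : ℝ) * (1 / l - (1 + C') * x) * ∑ i ∈ range (l - 1),
        lam * (((1 + i : ℕ) : ℝ) / l - x) ^ n * exp ((1 - ((1 + i : ℕ) : ℝ) / l) * aS / (n + 1))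
      - d * x := ⟨_, rfl⟩
  have hφc : Continuous φ := by
    rw [hφ]
    fun_prop
  have hφ0 : θ < φ 0 := by
    have e : φ 0 = d * (lam * R) := by
      rw [hφ, hRdef]
      simp only [mul_zero, sub_zero]
      rw [Finset.mul_sum, Finset.mul_sum, Finset.mul_sum, Finset.mul_sum]
      refine Finset.sum_congr rfl fun i _ => ?_
      ring
    rw [e]
    rw [div_lt_iff₀ hd0] at hlamR
    linarith
  have hinv : Tendsto (fun k => 1 / (ms k : ℝ)) atTop (𝓝 0) := by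
    simp only [one_div]
    exact tendsto_inv_atTop_zero.comp hmsR
  have E6 : ∀ᶠ k in atTop, θ < φ (1 / (ms k : ℝ)) :=
    ((hφc.tendsto 0).comp hinv).eventually (lt_mem_nhds hφ0)
  filter_upwards [E1, E2, E3, E4, E5, E6] with k h1 h2 h3 h4 h5 h6
  have hm0 : 0 < ms k := by
    have : 0 < l * (max j₀ j₁ + 1) := Nat.mul_pos (by omega) (by omega)
    omega
  have hmr : (0 : ℝ) < ms k := by exact_mod_cast hm0
  have hF0 : 0 < Fs (ms k) := (div_pos_iff_of_pos_right (pow_pos hmr n)).1 h2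
  have key := ctl_core n d t aS ht ht' haS Fs (ms k) l hl (a k) (ha k) (Q k) (T k) (hQm k) j₀
    (hQj k) C' H' (hchain k) c₁ c₂ lam hc₁0 hlamc hlam0 j₁ hj₁ h1 hF0 h3 h4 h5
  rw [hφ] at h6
  exact lt_of_lt_of_le h6 key

end Claimed.Agent.R242
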