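/-
R242 / Cvx / Limit : real analysis of Sections 4 and 5.4 of the paper, framework free.   Architect: helper100.

 * `exp_mean_le`        : Lemma 4.2, first paragraph (a fixed small multiple of the ordinary order has objective ≤ 1 - δ).
 * `istar_gt`, `exists_t` : I_* = ∫_0^1 s^n exp((1-s) a_*/(n+1)) ds > 1/(n+1), choice of t (5.24).
 * `center_limit`       : (5.23)-(5.28): liminf T_m ≥ d I_*.
 * `first_variation`    : replacement of (5.13): if the truncated tangential moment is > d/t then one fixed small ε lowers the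
                          objective by a fixed factor ρ < 1, UNIFORMLY in the data (ℓ_i, τ_i).
-/
import Mathlib
import Claimed.Agent.R242.Cvx.LimitAux

set_option autoImplicit false

namespace Claimed.Agent.R242

open Filter Topology Finset Real

/-- If the `x i` lie in `[-C, C]` and have mean `≤ -2ε`, then a fixed small `lam` (depending on `ε, C` only) gives
`mean exp (lam x_i) ≤ 1 - δ`. -/
theorem exp_mean_le (ε C : ℝ) (hε : 0 < ε) (hC : 0 < C) :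
    ∃ lam δ : ℝ, 0 < lam ∧ 0 < δ ∧ δ < 1 ∧ ∀ (N : ℕ) (x : Fin N → ℝ), 0 < N → (∀ i, |x i| ≤ C) →
      (∑ i, x i) / N ≤ -2 * ε → (∑ i, exp (lam * x i)) / N ≤ 1 - δ := by
  obtain ⟨lam, hlam⟩ : ∃ lam : ℝ, lam = min (1 / C) (ε / C ^ 2) := ⟨_, rfl⟩
  have hlam0 : 0 < lam := by rw [hlam]; exact lt_min (by positivity) (by positivity)
  have h1 : lam * C ≤ 1 := by
    have : lam ≤ 1 / C := by rw [hlam]; exact min_le_left _ _
    calc lam * C ≤ 1 / C * C := by gcongr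
      _ = 1 := by field_simp
  have h2 : lam * C ^ 2 ≤ ε := by
    have : lam ≤ ε / C ^ 2 := by rw [hlam]; exact min_le_right _ _
    calc lam * C ^ 2 ≤ ε / C ^ 2 * C ^ 2 := by gcongr
      _ = ε := by field_simp
  refine ⟨lam, min (lam * ε) (1 / 2), hlam0, lt_min (by positivity) (by norm_num),
    lt_of_le_of_lt (min_le_right _ _) (by norm_num), ?_⟩
  intro N x hN hx hmean
  have hN' : (0 : ℝ) < N := by exact_mod_cast hN
  have hpt : ∀ i, exp (lam * x i) ≤ 1 + lam * x i + lam * ε := by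
    intro i
    have hy : |lam * x i| ≤ 1 := by
      rw [abs_mul, abs_of_pos hlam0]
      exact (mul_le_mul_of_nonneg_left (hx i) hlam0.le).trans h1
    have h3 := Real.abs_exp_sub_one_sub_id_le hy
    have h4 := (abs_le.1 h3).2
    have h5 : (lam * x i) ^ 2 ≤ lam * ε := by
      have : (x i) ^ 2 ≤ C ^ 2 := sq_le_sq' (by linarith [(abs_le.1 (hx i)).1]) (abs_le.1 (hx i)).2
      calc (lam * x i) ^ 2 = lam * (lam * (x i) ^ 2) := by ring
        _ ≤ lam * (lam * C ^ 2) := by gcongr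
        _ ≤ lam * ε := by gcongr
    linarith
  have hsum : ∑ i, exp (lam * x i) ≤ N * (1 + lam * ε) + lam * ∑ i, x i := by
    calc ∑ i, exp (lam * x i) ≤ ∑ i, (1 + lam * x i + lam * ε) := Finset.sum_le_sum fun i _ => hpt i
      _ = N * (1 + lam * ε) + lam * ∑ i, x i := by
          simp only [Finset.sum_add_distrib, Finset.sum_const, Finset.card_univ, Fintype.card_fin,
            nsmul_eq_mul, Finset.mul_sum]
          ring
  rw [div_le_iff₀ hN'] at hmean ⊢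
  have h6 : min (lam * ε) (1 / 2) ≤ lam * ε := min_le_left _ _
  have h7 : lam * ∑ i, x i ≤ lam * (-2 * ε * N) := mul_le_mul_of_nonneg_left hmean hlam0.le
  nlinarith

theorem cvxl_cont (n : ℕ) (a : ℝ) : Continuous fun s : ℝ => s ^ n * exp ((1 - s) * a / (n + 1)) := by
  fun_prop

theorem istar_gt (n : ℕ) (a : ℝ) (ha : 0 < a) :
    1 / ((n : ℝ) + 1) < ∫ s in (0 : ℝ)..1, s ^ n * exp ((1 - s) * a / (n + 1)) := by
  have h0 : ∫ s in (0 : ℝ)..1, s ^ n = 1 / ((n : ℝ) + 1) := by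
    rw [integral_pow]
    simp
  rw [← h0]
  have hn : (0 : ℝ) < (n : ℝ) + 1 := by positivity
  refine intervalIntegral.integral_lt_integral_of_continuousOn_of_le_of_exists_lt zero_lt_one
    (by fun_prop) (cvxl_cont n a).continuousOn ?_ ?_
  · intro s hs
    have h1 : 0 ≤ (1 - s) * a / (n + 1) := by
      have : 0 ≤ 1 - s := by linarith [hs.2]
      positivity
    have h2 : 1 ≤ exp ((1 - s) * a / (n + 1)) := Real.one_le_exp h1
    have h3 : 0 ≤ s ^ n := pow_nonneg hs.1.le n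
    nlinarith
  · refine ⟨1 / 2, ⟨by norm_num, by norm_num⟩, ?_⟩
    have h1 : 0 < (1 - (1 / 2 : ℝ)) * a / (n + 1) := by
      have : (0 : ℝ) < 1 - 1 / 2 := by norm_num
      positivity
    have h2 : 1 < exp ((1 - (1 / 2 : ℝ)) * a / (n + 1)) := Real.one_lt_exp_iff.2 h1
    have h3 : (0 : ℝ) < (1 / 2) ^ n := by positivity
    nlinarith

/-- choice of `t` in (5.24) -/
theorem exists_t (n : ℕ) (a t₀ : ℝ) (ha : 0 < a) (ht₀ : t₀ < n + 1) :
    ∃ t : ℝ, t₀ < t ∧ 0 < t ∧ t < n + 1 ∧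
      1 / t < ∫ s in (0 : ℝ)..1, s ^ n * exp ((1 - s) * a / (n + 1)) := by
  have hI := istar_gt n a ha
  obtain ⟨I, hIdef⟩ : ∃ I : ℝ, I = ∫ s in (0 : ℝ)..1, s ^ n * exp ((1 - s) * a / (n + 1)) := ⟨_, rfl⟩
  rw [← hIdef] at hI ⊢
  have hn : (0 : ℝ) < (n : ℝ) + 1 := by positivity
  have hI0 : 0 < I := lt_trans (by positivity) hI
  have h1 : 1 / I < n + 1 := by
    rw [div_lt_iff₀ hI0]
    rw [div_lt_iff₀ hn] at hI
    linarith
  have hu : max t₀ (1 / I) < n + 1 := max_lt ht₀ h1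
  refine ⟨(max t₀ (1 / I) + (n + 1)) / 2, ?_, ?_, by linarith, ?_⟩
  · have := le_max_left t₀ (1 / I)
    linarith
  · have := le_max_right t₀ (1 / I)
    have : 0 < 1 / I := by positivity
    linarith
  · have h2 := le_max_right t₀ (1 / I)
    have h3 : 1 / I < (max t₀ (1 / I) + (n + 1)) / 2 := by linarith
    have h4 : 0 < 1 / I := by positivity
    rw [div_lt_iff₀ (lt_trans h4 h3)]
    rw [div_lt_iff₀ hI0] at h3
    linarith

/-- left Riemann sums (without the first term) of a continuous function on `[0,1]` -/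
theorem cvxl_riemann (f : ℝ → ℝ) (hf : Continuous f) (θ : ℝ) (hθ : θ < ∫ s in (0 : ℝ)..1, f s) :
    ∃ l₀ : ℕ, ∀ l : ℕ, l₀ ≤ l → θ < (1 / (l : ℝ)) * ∑ i ∈ Finset.Ico 1 l, f ((i : ℝ) / l) := by
  obtain ⟨I, hI⟩ : ∃ I : ℝ, I = ∫ s in (0 : ℝ)..1, f s := ⟨_, rfl⟩
  rw [← hI] at hθ
  obtain ⟨η, hη⟩ : ∃ η : ℝ, η = (I - θ) / 3 := ⟨_, rfl⟩
  have hη0 : 0 < η := by rw [hη]; linarith
  have huc : UniformContinuousOn f (Set.Icc 0 1) :=
    isCompact_Icc.uniformContinuousOn_of_continuous hf.continuousOn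
  rw [Metric.uniformContinuousOn_iff] at huc
  obtain ⟨δ, hδ, hδ'⟩ := huc η hη0
  obtain ⟨l₀, hl₀⟩ := exists_nat_gt (max (1 / δ) (|f 0| / η))
  refine ⟨l₀, fun l hl => ?_⟩
  have hl1 : max (1 / δ) (|f 0| / η) < (l : ℝ) := lt_of_lt_of_le hl₀ (by exact_mod_cast hl)
  have hlδ : 1 / δ < (l : ℝ) := lt_of_le_of_lt (le_max_left _ _) hl1
  have hlη : |f 0| / η < (l : ℝ) := lt_of_le_of_lt (le_max_right _ _) hl1
  have hl0 : (0 : ℝ) < l := lt_trans (by positivity) hlδ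
  have hlpos : 0 < l := by exact_mod_cast hl0
  have h1l : 1 / (l : ℝ) < δ := by
    rw [div_lt_iff₀ hl0]
    rw [div_lt_iff₀ hδ] at hlδ
    linarith
  have hf0 : f 0 / l < η := by
    have h1 : |f 0| / l < η := by
      rw [div_lt_iff₀ hl0]
      rw [div_lt_iff₀ hη0] at hlη
      linarith
    have h2 : f 0 / l ≤ |f 0| / l := by gcongr; exact le_abs_self _
    linarith
  have hsplit := intervalIntegral.sum_integral_adjacent_intervals (f := f) (μ := MeasureTheory.volume)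
    (a := fun k : ℕ => (k : ℝ) / l) (n := l) (fun k _ => hf.intervalIntegrable _ _)
  simp only [Nat.cast_zero, zero_div, div_self hl0.ne'] at hsplit
  have hpiece : ∀ k ∈ Finset.range l, ∫ x in ((k : ℝ) / l)..(((k + 1 : ℕ) : ℝ) / l), f x ≤
      (1 / (l : ℝ)) * (f ((k : ℝ) / l) + η) := by
    intro k hk
    have hk' : k < l := Finset.mem_range.1 hk
    have hkl : ((k + 1 : ℕ) : ℝ) ≤ l := by exact_mod_cast hk'
    have hab : (k : ℝ) / l ≤ ((k + 1 : ℕ) : ℝ) / l := by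
      gcongr
      push_cast
      linarith
    have h0k : 0 ≤ (k : ℝ) / l := by positivity
    have hk1 : ((k + 1 : ℕ) : ℝ) / l ≤ 1 := by
      rw [div_le_one hl0]
      exact hkl
    have hmono := intervalIntegral.integral_mono_on (μ := MeasureTheory.volume) (g := fun _ => f ((k : ℝ) / l) + η) hab
      (hf.intervalIntegrable _ _) (continuous_const.intervalIntegrable _ _) (by
        intro x hx
        have hx0 : x ∈ Set.Icc (0 : ℝ) 1 := ⟨h0k.trans hx.1, hx.2.trans hk1⟩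
        have hk0 : (k : ℝ) / l ∈ Set.Icc (0 : ℝ) 1 := ⟨h0k, hab.trans hk1⟩
        have hd : dist x ((k : ℝ) / l) < δ := by
          rw [Real.dist_eq, abs_of_nonneg (by linarith [hx.1])]
          have : ((k + 1 : ℕ) : ℝ) / l = (k : ℝ) / l + 1 / l := by
            push_cast
            ring
          linarith [hx.2]
        have h3 := hδ' x hx0 _ hk0 hd
        rw [Real.dist_eq] at h3
        linarith [(abs_lt.1 h3).2])
    rw [intervalIntegral.integral_const, smul_eq_mul] at hmono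
    have e : ((k + 1 : ℕ) : ℝ) / l - (k : ℝ) / l = 1 / l := by
      push_cast
      ring
    rw [e] at hmono
    exact hmono
  have hsum := Finset.sum_le_sum hpiece
  rw [hsplit, ← hI, ← Finset.mul_sum, Finset.sum_add_distrib, Finset.sum_const, Finset.card_range,
    nsmul_eq_mul, Finset.range_eq_Ico, Finset.sum_eq_sum_Ico_succ_bot hlpos] at hsum
  simp only [Nat.cast_zero, zero_div, zero_add] at hsum
  have e2 : 1 / (l : ℝ) * (f 0 + ∑ k ∈ Finset.Ico 1 l, f ((k : ℝ) / l) + (l : ℝ) * η) =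
      f 0 / l + 1 / (l : ℝ) * ∑ k ∈ Finset.Ico 1 l, f ((k : ℝ) / l) + η := by
    field_simp
  rw [e2] at hsum
  have : I - θ = 3 * η := by rw [hη]; ring
  linarith

/-- Riemann sums of (5.28) -/
theorem riemann_lower (n : ℕ) (a : ℝ) (ha : 0 < a) (θ : ℝ)
    (hθ : θ < ∫ s in (0 : ℝ)..1, s ^ n * exp ((1 - s) * a / (n + 1))) :
    ∃ l : ℕ, 2 ≤ l ∧ θ < (1 / (l : ℝ)) * ∑ i ∈ Finset.Ico 1 l,
      ((i : ℝ) / l) ^ n * exp ((1 - (i : ℝ) / l) * a / (n + 1)) := by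
  obtain ⟨l₀, h⟩ := cvxl_riemann _ (cvxl_cont n a) θ hθ
  exact ⟨max l₀ 2, le_max_right _ _, h _ (le_max_left _ _)⟩

/-- **The limiting argument of Section 5.4.**  `Fs j = N_j f_j`; the degrees `ms k` realise `liminf Fs j / j^n = c`
(no asymptotics of `N_j` alone is needed).  `a k` = discrepancy of the chosen minimizer in degree `ms k`, `Q k j = Q_j` for that
minimizer, `T k` its (truncated) tangential moment. -/
theorem center_limit (n d : ℕ) (hd : 1 ≤ d) (t aS : ℝ) (ht : 0 < t) (ht' : t < n + 1) (haS : 0 < aS)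
    (Fs : ℕ → ℝ) (c : ℝ) (hc : 0 < c) (hliminf : ∀ c' < c, ∀ᶠ j : ℕ in atTop, c' < Fs j / (j : ℝ) ^ n)
    (ms : ℕ → ℕ) (hms : StrictMono ms) (hfm : Tendsto (fun k => Fs (ms k) / (ms k : ℝ) ^ n) atTop (𝓝 c))
    (a : ℕ → ℝ) (ha : ∀ k, aS ≤ a k) (Q : ℕ → ℕ → ℝ) (T : ℕ → ℝ)
    (hQm : ∀ k, Q k (ms k) = Fs (ms k) * exp (-(a k) / t))
    (j₀ : ℕ) (hQj : ∀ k j, j₀ ≤ j → j ≤ ms k → Fs j * exp (-((j : ℝ) * a k) / (ms k * t)) ≤ Q k j)
    (C' : ℝ) (H' : ℕ)
    (hchain : ∀ k (l : ℕ) (j : ℕ → ℕ), j l = ms k → (∀ i < l, j i + H' ≤ j (i + 1)) →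
      (d : ℝ) * ∑ i ∈ Finset.range l, ((j (i + 1) : ℝ) - j i - C') * Q k (j i)
        ≤ (T k + d / ms k) * (ms k * Q k (ms k)))
    (θ : ℝ) (hθ : θ < d * ∫ s in (0 : ℝ)..1, s ^ n * exp ((1 - s) * aS / (n + 1))) :
    ∀ᶠ k in atTop, θ < T k := by
  have hd0 : (0 : ℝ) < d := by exact_mod_cast hd
  have hθ' : θ / d < ∫ s in (0 : ℝ)..1, s ^ n * exp ((1 - s) * aS / (n + 1)) := by
    rw [div_lt_iff₀ hd0]
    linarith
  obtain ⟨l, hl, hR⟩ := riemann_lower n aS haS (θ / d) hθ'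
  rw [Finset.sum_Ico_eq_sum_range] at hR
  exact ctl_final n d hd t aS ht ht' haS Fs c hc hliminf ms hms hfm a ha Q T hQm j₀ hQj C' H' hchain θ l hl hR

/-- **Uniform first variation.** -/
theorem first_variation (d k2 t m Lam Tlow εmax : ℝ) (hd : 0 ≤ d) (hk2 : 0 ≤ k2) (ht : 0 < t) (hm : 0 < m)
    (hLam : 0 < Lam) (hεmax : 0 < εmax) (hT : d / t < Tlow) :
    ∃ ε ρ : ℝ, 0 < ε ∧ ε ≤ εmax ∧ 0 < ρ ∧ ρ < 1 ∧ ∀ (N : ℕ) (ℓ τ : Fin N → ℝ), (∀ i, 0 ≤ τ i ∧ τ i ≤ Lam) →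
      Tlow * (m * ∑ i, exp (-(ℓ i) / m)) ≤ ∑ i, exp (-(ℓ i) / m) * τ i →
      exp ((d * ε + k2 * ε ^ 2) / t) * ∑ i, exp (-(ℓ i + ε * τ i) / m) ≤ ρ * ∑ i, exp (-(ℓ i) / m) := by
  obtain ⟨g, hg⟩ : ∃ g : ℝ, g = Tlow - d / t := ⟨_, rfl⟩
  have hg0 : 0 < g := by rw [hg]; linarith
  obtain ⟨K, hK⟩ : ∃ K : ℝ, K = k2 / t + Lam ^ 2 / m ^ 2 := ⟨_, rfl⟩
  have hK0 : 0 < K := by rw [hK]; positivity
  obtain ⟨ε, hε⟩ : ∃ ε : ℝ, ε = min εmax (min (m / Lam) (g / (2 * K))) := ⟨_, rfl⟩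
  have hε0 : 0 < ε := by rw [hε]; exact lt_min hεmax (lt_min (by positivity) (by positivity))
  have hε1 : ε ≤ εmax := by rw [hε]; exact min_le_left _ _
  have hε2 : ε ≤ m / Lam := by rw [hε]; exact (min_le_right _ _).trans (min_le_left _ _)
  have hε3 : ε ≤ g / (2 * K) := by rw [hε]; exact (min_le_right _ _).trans (min_le_right _ _)
  have hεK : ε * K ≤ g / 2 := by
    rw [le_div_iff₀ (by positivity)] at hε3
    linarith
  refine ⟨ε, exp (-(ε * g / 2)), hε0, hε1, exp_pos _, ?_, ?_⟩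
  · rw [Real.exp_lt_one_iff]
    have : 0 < ε * g / 2 := by positivity
    linarith
  intro N ℓ τ hτ hmom
  obtain ⟨W, hW⟩ : ∃ W : ℝ, W = ∑ i, exp (-(ℓ i) / m) := ⟨_, rfl⟩
  rw [← hW] at hmom ⊢
  have hW0 : 0 ≤ W := by rw [hW]; exact Finset.sum_nonneg fun i _ => (exp_pos _).le
  have hpt : ∀ i, exp (-(ℓ i + ε * τ i) / m) ≤
      exp (-(ℓ i) / m) * (1 + ε ^ 2 * (Lam ^ 2 / m ^ 2)) - ε / m * (exp (-(ℓ i) / m) * τ i) := by
    intro i
    obtain ⟨h0, h1⟩ := hτ i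
    have e : -(ℓ i + ε * τ i) / m = -(ℓ i) / m + -(ε * τ i / m) := by ring
    rw [e, Real.exp_add]
    have hy0 : 0 ≤ ε * τ i / m := by positivity
    have hy1 : ε * τ i / m ≤ 1 := by
      rw [div_le_one hm]
      calc ε * τ i ≤ m / Lam * Lam := mul_le_mul hε2 h1 h0 (by positivity)
        _ = m := by field_simp
    have hy : |-(ε * τ i / m)| ≤ 1 := by rw [abs_neg, abs_of_nonneg hy0]; exact hy1
    have h3 := (abs_le.1 (Real.abs_exp_sub_one_sub_id_le hy)).2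
    have h4 : (-(ε * τ i / m)) ^ 2 ≤ ε ^ 2 * (Lam ^ 2 / m ^ 2) := by
      have : τ i ^ 2 ≤ Lam ^ 2 := pow_le_pow_left₀ h0 h1 2
      calc (-(ε * τ i / m)) ^ 2 = ε ^ 2 * (τ i ^ 2 / m ^ 2) := by ring
        _ ≤ ε ^ 2 * (Lam ^ 2 / m ^ 2) := by gcongr
    have h5 : exp (-(ε * τ i / m)) ≤ 1 + ε ^ 2 * (Lam ^ 2 / m ^ 2) - ε / m * τ i := by
      have : ε / m * τ i = ε * τ i / m := by ring
      linarith
    calc exp (-(ℓ i) / m) * exp (-(ε * τ i / m)) ≤
        exp (-(ℓ i) / m) * (1 + ε ^ 2 * (Lam ^ 2 / m ^ 2) - ε / m * τ i) :=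
          mul_le_mul_of_nonneg_left h5 (exp_pos _).le
      _ = _ := by ring
  have hsum : ∑ i, exp (-(ℓ i + ε * τ i) / m) ≤ W * (1 + (-(ε * Tlow) + ε ^ 2 * (Lam ^ 2 / m ^ 2))) := by
    calc ∑ i, exp (-(ℓ i + ε * τ i) / m) ≤ ∑ i, (exp (-(ℓ i) / m) * (1 + ε ^ 2 * (Lam ^ 2 / m ^ 2))
          - ε / m * (exp (-(ℓ i) / m) * τ i)) := Finset.sum_le_sum fun i _ => hpt i
      _ = W * (1 + ε ^ 2 * (Lam ^ 2 / m ^ 2)) - ε / m * ∑ i, exp (-(ℓ i) / m) * τ i := by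
          rw [Finset.sum_sub_distrib, ← Finset.sum_mul, ← Finset.mul_sum, hW]
      _ ≤ W * (1 + ε ^ 2 * (Lam ^ 2 / m ^ 2)) - ε / m * (Tlow * (m * W)) := by
          have : 0 ≤ ε / m := by positivity
          have := mul_le_mul_of_nonneg_left hmom this
          linarith
      _ = _ := by
          field_simp
          ring
  have hexp : 1 + (-(ε * Tlow) + ε ^ 2 * (Lam ^ 2 / m ^ 2)) ≤ exp (-(ε * Tlow) + ε ^ 2 * (Lam ^ 2 / m ^ 2)) := by
    have := Real.add_one_le_exp (-(ε * Tlow) + ε ^ 2 * (Lam ^ 2 / m ^ 2))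
    linarith
  have hsum2 : ∑ i, exp (-(ℓ i + ε * τ i) / m) ≤ W * exp (-(ε * Tlow) + ε ^ 2 * (Lam ^ 2 / m ^ 2)) :=
    hsum.trans (mul_le_mul_of_nonneg_left hexp hW0)
  calc exp ((d * ε + k2 * ε ^ 2) / t) * ∑ i, exp (-(ℓ i + ε * τ i) / m)
      ≤ exp ((d * ε + k2 * ε ^ 2) / t) * (W * exp (-(ε * Tlow) + ε ^ 2 * (Lam ^ 2 / m ^ 2))) :=
        mul_le_mul_of_nonneg_left hsum2 (exp_pos _).le
    _ = exp ((d * ε + k2 * ε ^ 2) / t + (-(ε * Tlow) + ε ^ 2 * (Lam ^ 2 / m ^ 2))) * W := by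
        rw [Real.exp_add ((d * ε + k2 * ε ^ 2) / t)]
        ring
    _ ≤ exp (-(ε * g / 2)) * W := by
        refine mul_le_mul_of_nonneg_right (Real.exp_le_exp.2 ?_) hW0
        have e : (d * ε + k2 * ε ^ 2) / t + (-(ε * Tlow) + ε ^ 2 * (Lam ^ 2 / m ^ 2)) =
            -(ε * g) + ε * (ε * K) := by
          rw [hg, hK]
          ring
        rw [e]
        have := mul_le_mul_of_nonneg_left hεK hε0.le
        linarith

end Claimed.Agent.R242
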