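/-
R242 / Cvx / Rigid : convexity part of Section 6 (supporting functional, rigidity), framework free.  Architect: helper100.
Proofs: helper20.

`Phi N m t a q = (1/N) ∑_i exp (a/t - a q_i/m)` is the objective of a test of discrepancy `a` and normalized profile `q`.
`bvec` is the supporting functional (6.2).  REAL coefficients throughout (no rational approximation is needed in the L2 approach).
-/
import Mathlib

set_option autoImplicit false

namespace Claimed.Agent.R242

open Filter Topology Finset Real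

/-- objective as a function of discrepancy and normalized profile -/
noncomputable def Phi {N : ℕ} (m t a : ℝ) (q : Fin N → ℝ) : ℝ :=
  (∑ i, exp (a / t - a * q i / m)) / N

/-- the supporting functional (6.2) -/
noncomputable def bvec {N : ℕ} (m t a : ℝ) (q : Fin N → ℝ) (i : Fin N) : ℝ :=
  t / m * (exp (-(a * q i) / m) / ∑ h, exp (-(a * q h) / m))

theorem rigid_sum_exp_pos {N : ℕ} (hN : 0 < N) (f : Fin N → ℝ) : 0 < ∑ h, exp (f h) := by
  have : Nonempty (Fin N) := ⟨⟨0, hN⟩⟩
  exact Finset.sum_pos (fun h _ => exp_pos _) Finset.univ_nonempty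

theorem bvec_pos {N : ℕ} (m t a : ℝ) (hm : 0 < m) (ht : 0 < t) (q : Fin N → ℝ) (i : Fin N) :
    0 < bvec m t a q i := by
  have hN : 0 < N := lt_of_le_of_lt (Nat.zero_le _) i.2
  have hS := rigid_sum_exp_pos hN fun h => -(a * q h) / m
  unfold bvec
  have := exp_pos (-(a * q i) / m)
  positivity

/-- budget: `m ∑ b_i = t` -/
theorem bvec_sum {N : ℕ} (hN : 0 < N) (m t a : ℝ) (hm : 0 < m) (q : Fin N → ℝ) :
    m * ∑ i, bvec m t a q i = t := by
  have hS := rigid_sum_exp_pos hN fun h => -(a * q h) / m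
  unfold bvec
  rw [← Finset.mul_sum, ← Finset.sum_div, div_self hS.ne']
  field_simp

/-- `∑ b_i v_i` in terms of the exponential weights -/
theorem rigid_bvec_dot {N : ℕ} (m t a : ℝ) (q v : Fin N → ℝ) :
    ∑ i, bvec m t a q i * v i
      = t / m * ((∑ i, exp (-(a * q i) / m) * v i) / ∑ h, exp (-(a * q h) / m)) := by
  unfold bvec
  rw [Finset.sum_div, Finset.mul_sum]
  refine Finset.sum_congr rfl fun i _ => ?_
  ring

/-- scale derivative: if `a` minimizes `a' ↦ Phi a' q` on `(0,∞)` then `b · q = 1`  (6.3). -/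
theorem bvec_dot_of_scale_min {N : ℕ} (hN : 0 < N) (m t a : ℝ) (hm : 0 < m) (ht : 0 < t) (ha : 0 < a)
    (q : Fin N → ℝ) (hmin : ∀ a' : ℝ, 0 < a' → Phi m t a q ≤ Phi m t a' q) :
    ∑ i, bvec m t a q i * q i = 1 := by
  have hS := rigid_sum_exp_pos hN fun h => -(a * q h) / m
  have hNR : (0 : ℝ) < N := by exact_mod_cast hN
  have hloc : IsLocalMin (fun a' => Phi m t a' q) a := by
    filter_upwards [Ioi_mem_nhds ha] with a' ha'
    exact hmin a' ha'
  have hder : HasDerivAt (fun a' => Phi m t a' q)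
      ((∑ i, exp (a / t - a * q i / m) * (1 / t - q i / m)) / N) a := by
    unfold Phi
    refine HasDerivAt.div_const ?_ _
    refine HasDerivAt.fun_sum fun i _ => ?_
    refine HasDerivAt.exp ?_
    have h1 : HasDerivAt (fun a' : ℝ => a' / t) (1 / t) a := (hasDerivAt_id a).div_const t
    have h2 : HasDerivAt (fun a' : ℝ => a' * q i / m) (q i / m) a := by
      have := ((hasDerivAt_id a).mul_const (q i)).div_const m
      simpa using this
    exact h1.sub h2
  have h0 := hloc.hasDerivAt_eq_zero hder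
  rw [div_eq_zero_iff] at h0
  have h1 : ∑ i, exp (a / t - a * q i / m) * (1 / t - q i / m) = 0 :=
    h0.resolve_right hNR.ne'
  have h2 : ∑ i, exp (a / t - a * q i / m) * (1 / t - q i / m)
      = exp (a / t) * ((∑ h, exp (-(a * q h) / m)) / t - (∑ i, exp (-(a * q i) / m) * q i) / m) := by
    rw [Finset.sum_div, Finset.sum_div, ← Finset.sum_sub_distrib, Finset.mul_sum]
    refine Finset.sum_congr rfl fun i _ => ?_
    have : a / t - a * q i / m = a / t + -(a * q i) / m := by ring
    rw [this, exp_add]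
    ring
  rw [h2] at h1
  have h3 : (∑ h, exp (-(a * q h) / m)) / t - (∑ i, exp (-(a * q i) / m) * q i) / m = 0 :=
    (mul_eq_zero.1 h1).resolve_left (exp_pos _).ne'
  rw [rigid_bvec_dot]
  have h4 : (∑ i, exp (-(a * q i) / m) * q i) = m * ((∑ h, exp (-(a * q h) / m)) / t) := by
    have : (∑ i, exp (-(a * q i) / m) * q i) / m = (∑ h, exp (-(a * q h) / m)) / t := by linarith
    rw [← this]
    field_simp
  rw [h4]
  generalize (∑ h, exp (-(a * q h) / m)) = S at hS
  field_simp

/-- one-sided derivative along a segment: (6.4). -/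
theorem bvec_dot_le_of_segment_min {N : ℕ} (hN : 0 < N) (m t a : ℝ) (hm : 0 < m) (ht : 0 < t) (ha : 0 < a)
    (q q' : Fin N → ℝ)
    (hmin : ∀ θ : ℝ, 0 ≤ θ → θ ≤ 1 → Phi m t a q ≤ Phi m t a (fun i => (1 - θ) * q i + θ * q' i)) :
    ∑ i, bvec m t a q i * q' i ≤ ∑ i, bvec m t a q i * q i := by
  have hS := rigid_sum_exp_pos hN fun h => -(a * q h) / m
  have hNR : (0 : ℝ) < N := by exact_mod_cast hN
  set g : ℝ → ℝ := fun θ => Phi m t a (fun i => (1 - θ) * q i + θ * q' i) with hg
  have hg0 : g 0 = Phi m t a q := by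
    simp only [hg]
    congr 1
    funext i
    ring
  have hder : HasDerivAt g
      ((∑ i, exp (a / t - a * ((1 - 0) * q i + 0 * q' i) / m) * (-(a * (q' i - q i) / m))) / N) 0 := by
    simp only [hg]
    unfold Phi
    refine HasDerivAt.div_const ?_ _
    refine HasDerivAt.fun_sum fun i _ => ?_
    refine HasDerivAt.exp ?_
    have h1 : HasDerivAt (fun θ : ℝ => (1 - θ) * q i + θ * q' i) (q' i - q i) 0 := by
      have e1 : HasDerivAt (fun θ : ℝ => (1 - θ) * q i) (-1 * q i) 0 :=
        ((hasDerivAt_id (0 : ℝ)).const_sub 1).mul_const (q i)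
      have e2 : HasDerivAt (fun θ : ℝ => θ * q' i) (1 * q' i) 0 :=
        (hasDerivAt_id (0 : ℝ)).mul_const (q' i)
      exact (e1.add e2).congr_deriv (by ring)
    have h2 : HasDerivAt (fun θ : ℝ => a * ((1 - θ) * q i + θ * q' i) / m) (a * (q' i - q i) / m) 0 :=
      (h1.const_mul a).div_const m
    exact h2.const_sub (a / t)
  have hnonneg : 0 ≤ (∑ i, exp (a / t - a * ((1 - 0) * q i + 0 * q' i) / m)
      * (-(a * (q' i - q i) / m))) / N := by
    have hlim := hder.tendsto_slope_zero_right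
    refine ge_of_tendsto hlim ?_
    have hmem : Set.Ioc (0 : ℝ) 1 ∈ 𝓝[>] (0 : ℝ) := Ioc_mem_nhdsGT one_pos
    filter_upwards [hmem] with θ hθ
    have h1 := hmin θ hθ.1.le hθ.2
    rw [zero_add, smul_eq_mul]
    have h2 : 0 ≤ g θ - g 0 := by
      rw [hg0]
      exact sub_nonneg.2 h1
    exact mul_nonneg (inv_nonneg.2 hθ.1.le) h2
  have h1 : 0 ≤ ∑ i, exp (a / t - a * ((1 - 0) * q i + 0 * q' i) / m) * (-(a * (q' i - q i) / m)) := by
    have := mul_nonneg hnonneg hNR.le
    rwa [div_mul_cancel₀ _ hNR.ne'] at this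
  have h2 : ∑ i, exp (a / t - a * ((1 - 0) * q i + 0 * q' i) / m) * (-(a * (q' i - q i) / m))
      = (exp (a / t) * (a / m)) * ((∑ i, exp (-(a * q i) / m) * q i)
          - ∑ i, exp (-(a * q i) / m) * q' i) := by
    rw [← Finset.sum_sub_distrib, Finset.mul_sum]
    refine Finset.sum_congr rfl fun i _ => ?_
    have : a / t - a * ((1 - 0) * q i + 0 * q' i) / m = a / t + -(a * q i) / m := by ring
    rw [this, exp_add]
    ring
  rw [h2] at h1
  have hpos : 0 < exp (a / t) * (a / m) := mul_pos (exp_pos _) (div_pos ha hm)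
  have h3 : 0 ≤ (∑ i, exp (-(a * q i) / m) * q i) - ∑ i, exp (-(a * q i) / m) * q' i :=
    nonneg_of_mul_nonneg_right h1 hpos
  rw [rigid_bvec_dot, rigid_bvec_dot]
  refine mul_le_mul_of_nonneg_left ?_ (div_pos ht hm).le
  exact div_le_div_of_nonneg_right (by linarith) hS.le

/-- a profile `mu • q` with `mu > 1` has a smaller objective -/
theorem Phi_ray_lt {N : ℕ} (hN : 0 < N) (m t a mu : ℝ) (hm : 0 < m) (ha : 0 < a) (hmu : 1 < mu)
    (q : Fin N → ℝ) (hq : ∀ i, 0 ≤ q i) (hq0 : ∃ i, 0 < q i) :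
    Phi m t a (fun i => mu * q i) < Phi m t a q := by
  have hNR : (0 : ℝ) < N := by exact_mod_cast hN
  unfold Phi
  refine div_lt_div_of_pos_right ?_ hNR
  obtain ⟨i0, hi0⟩ := hq0
  have ham : 0 < a / m := div_pos ha hm
  refine Finset.sum_lt_sum (fun i _ => ?_) ⟨i0, Finset.mem_univ _, ?_⟩
  · apply exp_le_exp.2
    have h1 : q i ≤ mu * q i := by nlinarith [hq i]
    have h2 : a / m * q i ≤ a / m * (mu * q i) := mul_le_mul_of_nonneg_left h1 ham.le
    have e1 : a * (mu * q i) / m = a / m * (mu * q i) := by ring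
    have e2 : a * q i / m = a / m * q i := by ring
    rw [e1, e2]
    linarith
  · apply exp_lt_exp.2
    have h1 : q i0 < mu * q i0 := by nlinarith
    have h2 : a / m * q i0 < a / m * (mu * q i0) := mul_lt_mul_of_pos_left h1 ham
    have e1 : a * (mu * q i0) / m = a / m * (mu * q i0) := by ring
    have e2 : a * q i0 / m = a / m * q i0 := by ring
    rw [e1, e2]
    linarith

/-- monotonicity in the profile -/
theorem Phi_anti {N : ℕ} (m t a : ℝ) (hm : 0 < m) (ha : 0 ≤ a) (q q' : Fin N → ℝ) (h : ∀ i, q i ≤ q' i) :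
    Phi m t a q' ≤ Phi m t a q := by
  unfold Phi
  refine div_le_div_of_nonneg_right ?_ (Nat.cast_nonneg _)
  refine Finset.sum_le_sum fun i _ => ?_
  apply exp_le_exp.2
  have ham : 0 ≤ a / m := div_nonneg ha hm.le
  have h2 : a / m * q i ≤ a / m * q' i := mul_le_mul_of_nonneg_left (h i) ham
  have e1 : a * q' i / m = a / m * q' i := by ring
  have e2 : a * q i / m = a / m * q i := by ring
  rw [e1, e2]
  linarith

/-- **Rigidity (Lemma 6.2, inequality (6.12)-(6.13)).**  `mu` is any lower bound of the ratios `q'_i/q_i`, `q_i > 0`. -/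
theorem rigidity {N : ℕ} (b q q' : Fin N → ℝ) (hb : ∀ i, 0 < b i) (hq : ∀ i, 0 ≤ q i) (hq' : ∀ i, 0 ≤ q' i)
    (hbq : ∑ i, b i * q i = 1) (hbq' : ∑ i, b i * q' i ≤ 1) (η mu : ℝ) (hη0 : 0 < η) (hη1 : η < 1)
    (hmu : ∀ i, 0 < q i → mu * q i ≤ q' i) :
    (1 - η) * ∑ i, b i * q' i + η * mu ≤ 1 ∧
      ((1 - η) * ∑ i, b i * q' i + η * mu = 1 → q' = q) := by
  have hterm : ∀ i, mu * q i ≤ q' i := by
    intro i
    rcases (hq i).lt_or_eq with h | h
    · exact hmu i h
    · rw [← h, mul_zero]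
      exact hq' i
  have hnn : ∀ i, 0 ≤ b i * (q' i - mu * q i) := fun i =>
    mul_nonneg (hb i).le (sub_nonneg.2 (hterm i))
  have hsum : ∑ i, b i * (q' i - mu * q i) = ∑ i, b i * q' i - mu := by
    have : ∑ i, b i * (q' i - mu * q i) = ∑ i, b i * q' i - mu * ∑ i, b i * q i := by
      rw [Finset.mul_sum, ← Finset.sum_sub_distrib]
      refine Finset.sum_congr rfl fun i _ => ?_
      ring
    rw [this, hbq, mul_one]
  have hmuB : mu ≤ ∑ i, b i * q' i := by
    have := Finset.sum_nonneg fun i (_ : i ∈ Finset.univ) => hnn i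
    rw [hsum] at this
    linarith
  constructor
  · nlinarith
  · intro heq
    have hB : ∑ i, b i * q' i = 1 := by nlinarith
    have hmu1 : mu = 1 := by
      rw [hB] at heq
      have : η * (mu - 1) = 0 := by linarith
      have := (mul_eq_zero.1 this).resolve_left hη0.ne'
      linarith
    have hz : ∑ i, b i * (q' i - mu * q i) = 0 := by rw [hsum, hB, hmu1]; ring
    have hall := (Finset.sum_eq_zero_iff_of_nonneg fun i _ => hnn i).1 hz
    funext i
    have h1 := hall i (Finset.mem_univ i)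
    have h2 := (mul_eq_zero.1 h1).resolve_left (hb i).ne'
    rw [hmu1] at h2
    linarith

end Claimed.Agent.R242
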