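/-
R242 / Cvx / Seq : small tools on sequences (pigeonhole, compactness of weight simplices, liminf).   Framework free.
Architect: helper100.
-/
import Mathlib

set_option autoImplicit false

namespace Claimed.Agent.R242

open Filter Topology Finset

/-- pigeonhole for sequences in a finite set -/
theorem pigeon_subseq {α : Type*} (F : Finset α) (f : ℕ → α) (hf : ∀ k, f k ∈ F) :
    ∃ a ∈ F, ∃ φ : ℕ → ℕ, StrictMono φ ∧ ∀ k, f (φ k) = a := by
  have h : ∃ a ∈ F, ∃ᶠ k in atTop, f k = a := by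
    by_contra hcon
    push Not at hcon
    have h1 : ∀ a ∈ F, ∀ᶠ k in atTop, f k ≠ a := hcon
    have h2 : ∀ᶠ k in atTop, ∀ a ∈ F, f k ≠ a := (Filter.eventually_all_finset F).2 h1
    obtain ⟨k, hk⟩ := h2.exists
    exact hk (f k) (hf k) rfl
  obtain ⟨a, ha, hfr⟩ := h
  obtain ⟨φ, hφ, hφ'⟩ := Filter.extraction_of_frequently_atTop hfr
  exact ⟨a, ha, φ, hφ, hφ'⟩

/-- bounded sequences in `Fin N → ℝ` have convergent subsequences -/
theorem box_subseq {N : ℕ} (lo hi : ℝ) (x : ℕ → Fin N → ℝ) (hx : ∀ k i, lo ≤ x k i ∧ x k i ≤ hi) :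
    ∃ x0 : Fin N → ℝ, (∀ i, lo ≤ x0 i ∧ x0 i ≤ hi) ∧ ∃ φ : ℕ → ℕ, StrictMono φ ∧
      Tendsto (fun k => x (φ k)) atTop (𝓝 x0) := by
  obtain ⟨a, ha, φ, hφ, hlim⟩ := (isCompact_Icc (a := fun _ : Fin N => lo) (b := fun _ => hi)).tendsto_subseq
    (x := x) (fun k => ⟨fun i => (hx k i).1, fun i => (hx k i).2⟩)
  exact ⟨a, fun i => ⟨ha.1 i, ha.2 i⟩, φ, hφ, hlim⟩

/-- bounded real sequences have convergent subsequences -/
theorem real_subseq (lo hi : ℝ) (x : ℕ → ℝ) (hx : ∀ k, lo ≤ x k ∧ x k ≤ hi) :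
    ∃ x0 : ℝ, (lo ≤ x0 ∧ x0 ≤ hi) ∧ ∃ φ : ℕ → ℕ, StrictMono φ ∧ Tendsto (fun k => x (φ k)) atTop (𝓝 x0) := by
  obtain ⟨a, ha, φ, hφ, hlim⟩ := (isCompact_Icc (a := lo) (b := hi)).tendsto_subseq (x := x) (fun k => hx k)
  exact ⟨a, ha, φ, hφ, hlim⟩

/-- a sequence that is eventually in `[lo, hi]`, `lo > 0`: its lower limit `c` and a subsequence realising it -/
theorem liminf_seq (x : ℕ → ℝ) (lo hi : ℝ) (hlo : 0 < lo) (h : ∀ᶠ j in atTop, lo ≤ x j ∧ x j ≤ hi) :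
    ∃ c : ℝ, 0 < c ∧ (∀ c' < c, ∀ᶠ j in atTop, c' < x j) ∧
      ∃ ms : ℕ → ℕ, StrictMono ms ∧ Tendsto (fun k => x (ms k)) atTop (𝓝 c) := by
  have hb1 : IsBoundedUnder (· ≥ ·) atTop x := ⟨lo, by
    rw [eventually_map]
    exact h.mono fun j hj => hj.1⟩
  have hb2 : IsBoundedUnder (· ≤ ·) atTop x := ⟨hi, by
    rw [eventually_map]
    exact h.mono fun j hj => hj.2⟩
  have hc1 : IsCoboundedUnder (· ≥ ·) atTop x := hb2.isCoboundedUnder_ge
  have hc2 : IsCoboundedUnder (· ≤ ·) atTop x := hb1.isCoboundedUnder_le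
  have hev : ∀ c' < liminf x atTop, ∀ᶠ j in atTop, c' < x j := fun c' hc' =>
    Filter.eventually_lt_of_lt_liminf hc' hb1
  refine ⟨liminf x atTop, ?_, hev, ?_⟩
  · exact lt_of_lt_of_le hlo (Filter.le_liminf_of_le hc1 (h.mono fun j hj => hj.1))
  · have hfr : ∀ n : ℕ, ∃ᶠ j in atTop, |x j - liminf x atTop| < 1 / ((n : ℝ) + 1) := by
      intro n
      have hpos : (0 : ℝ) < 1 / ((n : ℝ) + 1) := by positivity
      have h1 : ∃ᶠ j in atTop, x j < liminf x atTop + 1 / ((n : ℝ) + 1) :=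
        Filter.frequently_lt_of_liminf_lt hc1 (by linarith)
      have h2 := hev (liminf x atTop - 1 / ((n : ℝ) + 1)) (by linarith)
      refine (h1.and_eventually h2).mono fun j hj => ?_
      rw [abs_lt]
      constructor <;> linarith [hj.1, hj.2]
    obtain ⟨φ, hφ, hφ'⟩ := Filter.extraction_forall_of_frequently hfr
    refine ⟨φ, hφ, ?_⟩
    rw [tendsto_iff_dist_tendsto_zero]
    refine squeeze_zero (fun _ => dist_nonneg) (fun n => ?_) tendsto_one_div_add_atTop_nhds_zero_nat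
    rw [Real.dist_eq]
    exact (hφ' n).le

end Claimed.Agent.R242
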