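/-
R242 / Cvx / Slices : Section 5.3 of the paper ("Growth forced by restricted sections"), framework free.
Architect: helper100.

 * `brunn_minkowski_pi`  : Brunn-Minkowski in `Fin d → ℝ` for measurable sets with measurable sum
                           (from Prekopa-Leindler, `Claimed.Agent.PL.plProp_pi_fin`).
 * `discrete_bm`         : paper (5.17):  #(A + C + {0,1}^d)^(1/d) ≥ #A^(1/d) + #C^(1/d).
 * `bathtub_trunc`       : paper (5.22) slice-wise, with the total degree TRUNCATED at a level `Lam ≥ (d! #A)^(1/d)`.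
                           Purely discrete proof: layer cake + #{|β| ≤ r} = choose (r+d) d ≤ (r+d)^d/d!
                           + comparison of ∑_j (b^d - j^d)^+ with the integral (telescoping, (j+1)^(d+1) - j^(d+1) ≥ (d+1) j^d).
 * `slice_growth`        : paper (5.18).
 * `slice_moment`        : paper (5.20)+(5.22)+(5.23) combined: the statement used by the core.
-/
import Mathlib
import Claimed.Agent.Lib.PLProp
import Claimed.Agent.R242.Cvx.Bathtub

set_option autoImplicit false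

namespace Claimed.Agent.R242

open Filter Topology Finset MeasureTheory
open scoped Pointwise ENNReal

/-- multiplicative Brunn-Minkowski after rescaling -/
theorem bmpi_mult (d : ℕ) (t : ℝ) (ht0 : 0 < t) (ht1 : t < 1) (A B : Set (Fin d → ℝ))
    (hA : MeasurableSet A) (hB : MeasurableSet B) (hAB : MeasurableSet (A + B)) :
    (ENNReal.ofReal (((1 - t) ^ d)⁻¹) * volume A) ^ (1 - t)
      * (ENNReal.ofReal ((t ^ d)⁻¹) * volume B) ^ t ≤ volume (A + B) := by
  have h1t : 0 < 1 - t := by linarith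
  have mA : MeasurableSet ((fun x : Fin d → ℝ => (1 - t) • x) ⁻¹' A) :=
    (measurable_const_smul (1 - t)) hA
  have mB : MeasurableSet ((fun x : Fin d → ℝ => t • x) ⁻¹' B) :=
    (measurable_const_smul t) hB
  have key := Claimed.Agent.PL.plProp_pi_fin d t ht0 ht1
    (Set.indicator ((fun x : Fin d → ℝ => (1 - t) • x) ⁻¹' A) 1)
    (Set.indicator ((fun x : Fin d → ℝ => t • x) ⁻¹' B) 1) (Set.indicator (A + B) 1)
    (measurable_one.indicator mA) (measurable_one.indicator mB) (measurable_one.indicator hAB) ?_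
  · rw [lintegral_indicator_one mA, lintegral_indicator_one mB, lintegral_indicator_one hAB,
      Measure.addHaar_preimage_smul _ h1t.ne', Measure.addHaar_preimage_smul _ ht0.ne',
      Module.finrank_fin_fun, abs_of_pos (by positivity), abs_of_pos (by positivity)] at key
    exact key
  · intro x y
    by_cases hx : (1 - t) • x ∈ A
    · by_cases hy : t • y ∈ B
      · have : (1 - t) • x + t • y ∈ A + B := Set.add_mem_add hx hy
        rw [Set.indicator_of_mem this]
        have h1 : Set.indicator ((fun x : Fin d → ℝ => (1 - t) • x) ⁻¹' A) (1 : (Fin d → ℝ) → ℝ≥0∞) x = 1 :=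
          Set.indicator_of_mem (by exact hx) _
        have h2 : Set.indicator ((fun x : Fin d → ℝ => t • x) ⁻¹' B) (1 : (Fin d → ℝ) → ℝ≥0∞) y = 1 :=
          Set.indicator_of_mem (by exact hy) _
        rw [h1, h2]
        simp
      · have h2 : Set.indicator ((fun x : Fin d → ℝ => t • x) ⁻¹' B) (1 : (Fin d → ℝ) → ℝ≥0∞) y = 0 :=
          Set.indicator_of_notMem (by exact hy) _
        rw [h2, ENNReal.zero_rpow_of_pos ht0]
        simp
    · have h1 : Set.indicator ((fun x : Fin d → ℝ => (1 - t) • x) ⁻¹' A) (1 : (Fin d → ℝ) → ℝ≥0∞) x = 0 :=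
        Set.indicator_of_notMem (by exact hx) _
      rw [h1, ENNReal.zero_rpow_of_pos h1t]
      simp

/-- a translate of `B` sits inside `A + B` -/
theorem bmpi_le_right (d : ℕ) (A B : Set (Fin d → ℝ)) (hAne : A.Nonempty) :
    volume B ≤ volume (A + B) := by
  obtain ⟨a, ha⟩ := hAne
  calc volume B = volume (a +ᵥ B) := (measure_vadd volume a B).symm
    _ ≤ volume (A + B) := by
      apply measure_mono
      rintro _ ⟨b, hb, rfl⟩
      exact Set.add_mem_add ha hb

/-- Brunn-Minkowski inequality in `ℝ^d` -/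
theorem brunn_minkowski_pi (d : ℕ) (hd : 1 ≤ d) (A B : Set (Fin d → ℝ)) (hA : MeasurableSet A)
    (hB : MeasurableSet B) (hAB : MeasurableSet (A + B)) (hAne : A.Nonempty) (hBne : B.Nonempty) :
    volume A ^ (1 / (d : ℝ)) + volume B ^ (1 / (d : ℝ)) ≤ volume (A + B) ^ (1 / (d : ℝ)) := by
  have hd0 : (0 : ℝ) < d := by exact_mod_cast hd
  have hinv : (0 : ℝ) < 1 / (d : ℝ) := by positivity
  have hBle : volume B ≤ volume (A + B) := bmpi_le_right d A B hAne
  have hAle : volume A ≤ volume (A + B) := by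
    rw [add_comm A B]; exact bmpi_le_right d B A hBne
  by_cases hA0 : volume A = 0
  · rw [hA0, ENNReal.zero_rpow_of_pos hinv, zero_add]
    exact ENNReal.rpow_le_rpow hBle hinv.le
  by_cases hB0 : volume B = 0
  · rw [hB0, ENNReal.zero_rpow_of_pos hinv, add_zero]
    exact ENNReal.rpow_le_rpow hAle hinv.le
  by_cases hAt : volume A = ⊤
  · have : volume (A + B) = ⊤ := top_le_iff.mp (hAt ▸ hAle)
    rw [this, ENNReal.top_rpow_of_pos hinv]
    exact le_top
  by_cases hBt : volume B = ⊤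
  · have : volume (A + B) = ⊤ := top_le_iff.mp (hBt ▸ hBle)
    rw [this, ENNReal.top_rpow_of_pos hinv]
    exact le_top
  -- main case
  set α : ℝ := (volume A).toReal with hα
  set β : ℝ := (volume B).toReal with hβ
  have hαpos : 0 < α := ENNReal.toReal_pos hA0 hAt
  have hβpos : 0 < β := ENNReal.toReal_pos hB0 hBt
  have hvA : volume A = ENNReal.ofReal α := (ENNReal.ofReal_toReal hAt).symm
  have hvB : volume B = ENNReal.ofReal β := (ENNReal.ofReal_toReal hBt).symm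
  set a : ℝ := α ^ (1 / (d : ℝ)) with ha
  set b : ℝ := β ^ (1 / (d : ℝ)) with hb
  have hapos : 0 < a := Real.rpow_pos_of_pos hαpos _
  have hbpos : 0 < b := Real.rpow_pos_of_pos hβpos _
  have had : a ^ d = α := by
    rw [ha, ← Real.rpow_natCast, ← Real.rpow_mul hαpos.le, one_div, inv_mul_cancel₀ hd0.ne',
      Real.rpow_one]
  have hbd : b ^ d = β := by
    rw [hb, ← Real.rpow_natCast, ← Real.rpow_mul hβpos.le, one_div, inv_mul_cancel₀ hd0.ne',
      Real.rpow_one]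
  have ht0 : 0 < b / (a + b) := by positivity
  have ht1 : b / (a + b) < 1 := by
    rw [div_lt_one (by positivity)]; linarith
  have h1t : 1 - b / (a + b) = a / (a + b) := by
    field_simp; ring
  have key := bmpi_mult d (b / (a + b)) ht0 ht1 A B hA hB hAB
  have e1 : ENNReal.ofReal (((1 - b / (a + b)) ^ d)⁻¹) * volume A = ENNReal.ofReal ((a + b) ^ d) := by
    rw [hvA, ← ENNReal.ofReal_mul (by rw [h1t]; positivity), h1t, ← had]
    congr 1
    rw [div_pow]
    field_simp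
  have e2 : ENNReal.ofReal (((b / (a + b)) ^ d)⁻¹) * volume B = ENNReal.ofReal ((a + b) ^ d) := by
    rw [hvB, ← ENNReal.ofReal_mul (by positivity), ← hbd]
    congr 1
    rw [div_pow]
    field_simp
  rw [e1, e2, Claimed.Agent.PL.pl_rpow_mul_rpow_self _ ht0 ht1] at key
  have key2 := ENNReal.rpow_le_rpow key hinv.le
  refine le_trans (le_of_eq ?_) key2
  rw [hvA, hvB, ENNReal.ofReal_rpow_of_pos hαpos, ENNReal.ofReal_rpow_of_pos hβpos,
    ENNReal.ofReal_rpow_of_pos (by positivity), ← ENNReal.ofReal_add hapos.le hbpos.le]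
  congr 1
  rw [← Real.rpow_natCast, ← Real.rpow_mul (by positivity), one_div, mul_inv_cancel₀ hd0.ne',
    Real.rpow_one]

/-- the discrete cube `{0,1}^d` -/
def cube01 (d : ℕ) : Finset (Fin d → ℕ) := Fintype.piFinset fun _ => {0, 1}

/-- volume of a finite set of lattice points thickened by the unit cube -/
theorem volume_thicken (d : ℕ) (A : Finset (Fin d → ℕ)) :
    volume (⋃ β ∈ A, Set.Icc (fun i => (β i : ℝ)) (fun i => (β i : ℝ) + 1)) = (A.card : ℝ≥0∞) := by
  apply le_antisymm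
  · refine (measure_biUnion_finset_le A _).trans (le_of_eq ?_)
    simp [Real.volume_Icc_pi]
  · have hdisj : Set.PairwiseDisjoint (↑A : Set (Fin d → ℕ))
        (fun β : Fin d → ℕ => Set.pi Set.univ fun i => Set.Ico (β i : ℝ) ((β i : ℝ) + 1)) := by
      intro β _ γ _ hne
      rw [Function.onFun, Set.disjoint_left]
      intro x hx hy
      apply hne
      funext i
      have h1 := hx i (Set.mem_univ i)
      have h2 := hy i (Set.mem_univ i)
      have h3 : (β i : ℝ) < (γ i : ℝ) + 1 := lt_of_le_of_lt h1.1 h2.2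
      have h4 : (γ i : ℝ) < (β i : ℝ) + 1 := lt_of_le_of_lt h2.1 h1.2
      have h3' : β i < γ i + 1 := by exact_mod_cast h3
      have h4' : γ i < β i + 1 := by exact_mod_cast h4
      omega
    have hmeas : ∀ β ∈ A, MeasurableSet
        (Set.pi Set.univ fun i => Set.Ico ((β : Fin d → ℕ) i : ℝ) ((β i : ℝ) + 1)) := by
      intro β _
      exact MeasurableSet.univ_pi fun i => measurableSet_Ico
    have hsum := measure_biUnion_finset (μ := (volume : Measure (Fin d → ℝ))) hdisj hmeas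
    have hval : ∑ β ∈ A, volume (Set.pi Set.univ fun i => Set.Ico ((β : Fin d → ℕ) i : ℝ) ((β i : ℝ) + 1))
        = (A.card : ℝ≥0∞) := by
      simp [Real.volume_pi_Ico]
    rw [← hval, ← hsum]
    apply measure_mono
    apply Set.iUnion₂_mono
    intro β _ x hx
    exact ⟨fun i => (hx i (Set.mem_univ i)).1, fun i => (hx i (Set.mem_univ i)).2.le⟩

/-- the thickening is compact -/
theorem bmpi_thicken_compact (d : ℕ) (A : Finset (Fin d → ℕ)) :
    IsCompact (⋃ β ∈ A, Set.Icc (fun i => (β i : ℝ)) (fun i => (β i : ℝ) + 1)) :=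
  A.isCompact_biUnion fun _ _ => isCompact_Icc

/-- paper (5.17), the inclusion -/
theorem bmpi_thicken_add (d : ℕ) (A C : Finset (Fin d → ℕ)) :
    (⋃ β ∈ A, Set.Icc (fun i => (β i : ℝ)) (fun i => (β i : ℝ) + 1))
      + (⋃ β ∈ C, Set.Icc (fun i => (β i : ℝ)) (fun i => (β i : ℝ) + 1))
    ⊆ ⋃ β ∈ A + C + cube01 d, Set.Icc (fun i => (β i : ℝ)) (fun i => (β i : ℝ) + 1) := by
  classical
  rintro _ ⟨x, hx, y, hy, rfl⟩
  simp only [Set.mem_iUnion, exists_prop] at hx hy ⊢
  obtain ⟨β, hβ, hxβ⟩ := hx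
  obtain ⟨γ, hγ, hyγ⟩ := hy
  refine ⟨β + γ + (fun i => if x i + y i ≤ (β i : ℝ) + γ i + 1 then 0 else 1),
    Finset.add_mem_add (Finset.add_mem_add hβ hγ) ?_, ?_, ?_⟩
  · rw [cube01, Fintype.mem_piFinset]
    intro i
    by_cases h : x i + y i ≤ (β i : ℝ) + γ i + 1 <;> simp [h]
  · intro i
    have h1 := hxβ.1 i
    have h2 := hyγ.1 i
    simp only at h1 h2
    by_cases h : x i + y i ≤ (β i : ℝ) + γ i + 1
    · simp only [Pi.add_apply, h, if_true, Nat.cast_add, Nat.cast_zero]; linarith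
    · simp only [Pi.add_apply, h, if_false, Nat.cast_add, Nat.cast_one]; linarith
  · intro i
    have h1 := hxβ.2 i
    have h2 := hyγ.2 i
    simp only at h1 h2
    by_cases h : x i + y i ≤ (β i : ℝ) + γ i + 1
    · simp only [Pi.add_apply, h, if_true, Nat.cast_add, Nat.cast_zero]; linarith
    · simp only [Pi.add_apply, h, if_false, Nat.cast_add, Nat.cast_one]; linarith

/-- nonempty thickening -/
theorem bmpi_thicken_nonempty (d : ℕ) (A : Finset (Fin d → ℕ)) (hA : A.Nonempty) :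
    (⋃ β ∈ A, Set.Icc (fun i => (β i : ℝ)) (fun i => (β i : ℝ) + 1)).Nonempty := by
  obtain ⟨β, hβ⟩ := hA
  refine ⟨fun i => (β i : ℝ), ?_⟩
  simp only [Set.mem_iUnion, exists_prop]
  exact ⟨β, hβ, fun i => le_refl _, fun i => by simp⟩

/-- **discrete Brunn-Minkowski**, paper (5.17) -/
theorem discrete_bm (d : ℕ) (hd : 1 ≤ d) (A C : Finset (Fin d → ℕ)) (hA : A.Nonempty) (hC : C.Nonempty) :
    (A.card : ℝ) ^ (1 / (d : ℝ)) + (C.card : ℝ) ^ (1 / (d : ℝ))
      ≤ ((A + C + cube01 d).card : ℝ) ^ (1 / (d : ℝ)) := by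
  have hd0 : (0 : ℝ) < d := by exact_mod_cast hd
  have hinv : (0 : ℝ) < 1 / (d : ℝ) := by positivity
  have cA := bmpi_thicken_compact d A
  have cC := bmpi_thicken_compact d C
  have bm := brunn_minkowski_pi d hd _ _ cA.measurableSet cC.measurableSet
    (cA.add cC).measurableSet (bmpi_thicken_nonempty d A hA) (bmpi_thicken_nonempty d C hC)
  have mono := ENNReal.rpow_le_rpow (measure_mono (μ := volume) (bmpi_thicken_add d A C)) hinv.le
  have h := bm.trans mono
  rw [volume_thicken, volume_thicken, volume_thicken] at h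
  have conv : ∀ n : ℕ, ((n : ℝ≥0∞)) ^ (1 / (d : ℝ)) = ENNReal.ofReal ((n : ℝ) ^ (1 / (d : ℝ))) := by
    intro n
    rw [← ENNReal.ofReal_natCast, ENNReal.ofReal_rpow_of_nonneg (Nat.cast_nonneg n) hinv.le]
  rw [conv, conv, conv, ← ENNReal.ofReal_add (by positivity) (by positivity)] at h
  exact (ENNReal.ofReal_le_ofReal_iff (by positivity)).mp h

section Slices

variable {P : Type*} [DecidableEq P]

/-- the slice `G_p(j)` -/
def slice {d : ℕ} (Γ : Finset (P × (Fin d → ℕ))) (p : P) : Finset (Fin d → ℕ) :=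
  (Γ.filter fun x => x.1 = p).image Prod.snd

/-- `b_p = (d! # G_p)^(1/d)` -/
noncomputable def sliceB {d : ℕ} (Γ : Finset (P × (Fin d → ℕ))) (p : P) : ℝ :=
  ((d.factorial : ℝ) * (slice Γ p).card) ^ (1 / (d : ℝ))

/-- membership in a slice -/
theorem mem_slice_iff {d : ℕ} (Γ : Finset (P × (Fin d → ℕ))) (p : P) (β : Fin d → ℕ) :
    β ∈ slice Γ p ↔ (p, β) ∈ Γ := by
  rw [slice, Finset.mem_image]
  constructor
  · rintro ⟨⟨q, β0⟩, hq, rfl⟩
    obtain ⟨h1, h2⟩ := Finset.mem_filter.mp hq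
    simp only at h2
    subst h2
    exact h1
  · intro h
    exact ⟨(p, β), Finset.mem_filter.mpr ⟨h, rfl⟩, rfl⟩

/-- paper (5.18): every nonempty slice grows linearly with slope one -/
theorem slice_growth (d : ℕ) (hd : 1 ≤ d)
    (Γ : ℕ → Finset (P × (Fin d → ℕ))) (G0 : ℕ → Finset (Fin d → ℕ))
    (hact : ∀ i j p β β', (p, β) ∈ Γ i → β' ∈ G0 j → (p, β + β') ∈ Γ (i + j))
    (h0 : ℕ) (hcube : cube01 d ⊆ G0 h0)
    (Cd : ℝ) (Hd : ℕ)
    (hgrow : ∀ h, Hd ≤ h → (h : ℝ) - Cd ≤ ((d.factorial : ℝ) * (G0 h).card) ^ (1 / (d : ℝ)))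
    (hne : ∀ h, Hd ≤ h → (G0 h).Nonempty)
    (j h : ℕ) (hh : Hd + h0 ≤ h) (p : P) (hp : (slice (Γ j) p).Nonempty) :
    sliceB (Γ j) p + ((h : ℝ) - (Cd + h0)) ≤ sliceB (Γ (j + h)) p := by
  have hd0 : (0 : ℝ) < d := by exact_mod_cast hd
  have hinv : (0 : ℝ) < 1 / (d : ℝ) := by positivity
  have hh' : Hd ≤ h - h0 := by omega
  have hsub : slice (Γ j) p + G0 (h - h0) + cube01 d ⊆ slice (Γ (j + h)) p := by
    intro γ hγ
    obtain ⟨x, hx, c, hc, rfl⟩ := Finset.mem_add.mp hγ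
    obtain ⟨β, hβ, β', hβ', rfl⟩ := Finset.mem_add.mp hx
    rw [mem_slice_iff] at hβ ⊢
    have h1 := hact _ _ _ _ _ (hact _ _ _ _ _ hβ hβ') (hcube hc)
    have e : j + (h - h0) + h0 = j + h := by omega
    rwa [e] at h1
  have hbm := discrete_bm d hd (slice (Γ j) p) (G0 (h - h0)) hp (hne _ hh')
  have hcard : ((slice (Γ j) p + G0 (h - h0) + cube01 d).card : ℝ) ≤ ((slice (Γ (j + h)) p).card : ℝ) := by
    exact_mod_cast Finset.card_le_card hsub
  have hmono := Real.rpow_le_rpow (Nat.cast_nonneg _) hcard hinv.le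
  have hg := hgrow _ hh'
  have hf : (0 : ℝ) ≤ (d.factorial : ℝ) := Nat.cast_nonneg _
  have hF : (0 : ℝ) ≤ (d.factorial : ℝ) ^ (1 / (d : ℝ)) := Real.rpow_nonneg hf _
  rw [Real.mul_rpow hf (Nat.cast_nonneg _)] at hg
  unfold sliceB
  rw [Real.mul_rpow hf (Nat.cast_nonneg _), Real.mul_rpow hf (Nat.cast_nonneg _)]
  have hcast : ((h - h0 : ℕ) : ℝ) = (h : ℝ) - h0 := by
    rw [Nat.cast_sub (by omega)]
  rw [hcast] at hg
  have h2 := mul_le_mul_of_nonneg_left (hbm.trans hmono) hF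
  rw [mul_add] at h2
  linarith

/-- summation slice by slice -/
theorem sum_eq_sum_slice {d : ℕ} (Γ : Finset (P × (Fin d → ℕ))) (S : Finset P)
    (hS : ∀ x ∈ Γ, x.1 ∈ S) (f : P → (Fin d → ℕ) → ℝ) :
    ∑ x ∈ Γ, f x.1 x.2 = ∑ p ∈ S, ∑ β ∈ slice Γ p, f p β := by
  rw [← Finset.sum_fiberwise_of_maps_to (g := Prod.fst) hS]
  apply Finset.sum_congr rfl
  intro p _
  rw [slice, Finset.sum_image]
  · apply Finset.sum_congr rfl
    intro x hx
    rw [(Finset.mem_filter.mp hx).2]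
  · intro x hx y hy hxy
    have h1 : x.1 = p := (Finset.mem_filter.mp hx).2
    have h2 : y.1 = p := (Finset.mem_filter.mp hy).2
    exact Prod.ext (h1.trans h2.symm) hxy

/-- a slice is not larger than the whole set -/
theorem card_slice_le {d : ℕ} (Γ : Finset (P × (Fin d → ℕ))) (p : P) :
    (slice Γ p).card ≤ Γ.card :=
  Finset.card_image_le.trans (Finset.card_filter_le _ _)

theorem sliceB_nonneg {d : ℕ} (Γ : Finset (P × (Fin d → ℕ))) (p : P) : 0 ≤ sliceB Γ p :=
  Real.rpow_nonneg (by positivity) _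

/-- `b_p^d = d! # G_p` -/
theorem sliceB_pow {d : ℕ} (hd : 1 ≤ d) (Γ : Finset (P × (Fin d → ℕ))) (p : P) :
    sliceB Γ p ^ d = (d.factorial : ℝ) * (slice Γ p).card := by
  have hd0 : (0 : ℝ) < d := by exact_mod_cast hd
  rw [sliceB, ← Real.rpow_natCast, ← Real.rpow_mul (by positivity), one_div,
    inv_mul_cancel₀ hd0.ne', Real.rpow_one]

/-- telescoping (5.20) along the chain, one slice -/
theorem slice_telescope (d : ℕ) (hd : 1 ≤ d)
    (Γ : ℕ → Finset (P × (Fin d → ℕ))) (G0 : ℕ → Finset (Fin d → ℕ))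
    (hact : ∀ i j p β β', (p, β) ∈ Γ i → β' ∈ G0 j → (p, β + β') ∈ Γ (i + j))
    (h0 : ℕ) (hcube : cube01 d ⊆ G0 h0)
    (Cd : ℝ) (Hd : ℕ)
    (hgrow : ∀ h, Hd ≤ h → (h : ℝ) - Cd ≤ ((d.factorial : ℝ) * (G0 h).card) ^ (1 / (d : ℝ)))
    (hne : ∀ h, Hd ≤ h → (G0 h).Nonempty)
    (l : ℕ) (j : ℕ → ℕ) (hinc : ∀ i < l, j i + (Hd + h0) ≤ j (i + 1))
    (hinc' : ∀ i < l, Cd + h0 ≤ (j (i + 1) : ℝ) - j i) (p : P) (k : ℕ) (hk : k ≤ l) :
    ∑ i ∈ Finset.range k, ((d : ℝ) + 1) * ((d.factorial : ℝ) * (slice (Γ (j i)) p).card)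
        * ((j (i + 1) : ℝ) - j i - (Cd + h0))
      ≤ sliceB (Γ (j k)) p ^ (d + 1) := by
  induction k with
  | zero =>
    simp only [Finset.range_zero, Finset.sum_empty]
    exact pow_nonneg (sliceB_nonneg _ _) _
  | succ k ih =>
    have hkl : k < l := hk
    have ih' := ih hkl.le
    rw [Finset.sum_range_succ]
    have hy : 0 ≤ (j (k + 1) : ℝ) - j k - (Cd + h0) := by linarith [hinc' k hkl]
    by_cases hp : (slice (Γ (j k)) p).Nonempty
    · have hle : j k ≤ j (k + 1) := by have := hinc k hkl; omega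
      have hg := slice_growth d hd Γ G0 hact h0 hcube Cd Hd hgrow hne (j k) (j (k + 1) - j k)
        (by have := hinc k hkl; omega) p hp
      rw [Nat.add_sub_cancel' hle, Nat.cast_sub hle] at hg
      have ht := bath_pow_tangent d (sliceB (Γ (j k)) p) ((j (k + 1) : ℝ) - j k - (Cd + h0))
        (sliceB_nonneg _ _) hy
      rw [sliceB_pow hd] at ht
      have hpw : (sliceB (Γ (j k)) p + ((j (k + 1) : ℝ) - j k - (Cd + h0))) ^ (d + 1)
          ≤ sliceB (Γ (j (k + 1))) p ^ (d + 1) := by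
        apply pow_le_pow_left₀ (add_nonneg (sliceB_nonneg _ _) hy)
        linarith
      linarith
    · rw [Finset.not_nonempty_iff_eq_empty] at hp
      have hb0 : sliceB (Γ (j k)) p ^ (d + 1) = 0 := by
        rw [pow_succ, sliceB_pow hd, hp]
        simp
      rw [hp]
      simp only [Finset.card_empty, Nat.cast_zero, mul_zero, zero_mul, add_zero]
      have := pow_nonneg (sliceB_nonneg (Γ (j (k + 1))) p) (d + 1)
      linarith

/-- the slice moment inequality, one slice -/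
theorem slice_moment_one (d : ℕ) (hd : 1 ≤ d)
    (Γ : ℕ → Finset (P × (Fin d → ℕ))) (G0 : ℕ → Finset (Fin d → ℕ))
    (hact : ∀ i j p β β', (p, β) ∈ Γ i → β' ∈ G0 j → (p, β + β') ∈ Γ (i + j))
    (h0 : ℕ) (hcube : cube01 d ⊆ G0 h0)
    (Cd : ℝ) (Hd : ℕ)
    (hgrow : ∀ h, Hd ≤ h → (h : ℝ) - Cd ≤ ((d.factorial : ℝ) * (G0 h).card) ^ (1 / (d : ℝ)))
    (hne : ∀ h, Hd ≤ h → (G0 h).Nonempty)
    (l : ℕ) (j : ℕ → ℕ) (hinc : ∀ i < l, j i + (Hd + h0) ≤ j (i + 1))
    (hinc' : ∀ i < l, Cd + h0 ≤ (j (i + 1) : ℝ) - j i)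
    (Lam : ℝ) (hLam : ((d.factorial : ℝ) * (Γ (j l)).card) ^ (1 / (d : ℝ)) ≤ Lam) (p : P) :
    (d : ℝ) * ∑ i ∈ Finset.range l, ((j (i + 1) : ℝ) - j i - (Cd + h0)) * (slice (Γ (j i)) p).card
      ≤ ∑ β ∈ slice (Γ (j l)) p, (min (∑ i, (β i : ℝ)) Lam + d) := by
  have hd0 : (0 : ℝ) < d := by exact_mod_cast hd
  have hinv : (0 : ℝ) < 1 / (d : ℝ) := by positivity
  have hf : (0 : ℝ) < (d.factorial : ℝ) := by exact_mod_cast d.factorial_pos
  have hLam' : ((d.factorial : ℝ) * (slice (Γ (j l)) p).card) ^ (1 / (d : ℝ)) ≤ Lam := by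
    refine le_trans (Real.rpow_le_rpow (by positivity) ?_ hinv.le) hLam
    apply mul_le_mul_of_nonneg_left _ hf.le
    exact_mod_cast card_slice_le _ _
  have hb := bathtub_trunc d hd (slice (Γ (j l)) p) Lam hLam'
  have ht := slice_telescope d hd Γ G0 hact h0 hcube Cd Hd hgrow hne l j hinc hinc' p l le_rfl
  refine le_trans ?_ hb
  have hc : (0 : ℝ) ≤ (d : ℝ) / ((d + 1) * d.factorial) := by positivity
  have h1 := mul_le_mul_of_nonneg_left ht hc
  refine le_trans (le_of_eq ?_) h1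
  rw [Finset.mul_sum, Finset.mul_sum]
  apply Finset.sum_congr rfl
  intro i _
  field_simp

/-- **the slice moment inequality** = paper (5.20), (5.22), (5.23).  `wt p = exp (-ℓ(p)/m)`.
`j 0 < j 1 < ... < j l` is a chain of degrees with large increments. -/
theorem slice_moment (d : ℕ) (hd : 1 ≤ d) (wt : P → ℝ) (hwt : ∀ p, 0 ≤ wt p)
    (Γ : ℕ → Finset (P × (Fin d → ℕ))) (G0 : ℕ → Finset (Fin d → ℕ))
    (hact : ∀ i j p β β', (p, β) ∈ Γ i → β' ∈ G0 j → (p, β + β') ∈ Γ (i + j))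
    (h0 : ℕ) (hcube : cube01 d ⊆ G0 h0)
    (Cd : ℝ) (Hd : ℕ)
    (hgrow : ∀ h, Hd ≤ h → (h : ℝ) - Cd ≤ ((d.factorial : ℝ) * (G0 h).card) ^ (1 / (d : ℝ)))
    (hne : ∀ h, Hd ≤ h → (G0 h).Nonempty)
    (l : ℕ) (j : ℕ → ℕ) (hinc : ∀ i < l, j i + (Hd + h0) ≤ j (i + 1))
    (hinc' : ∀ i < l, Cd + h0 ≤ (j (i + 1) : ℝ) - j i)
    (Lam : ℝ) (hLam : ((d.factorial : ℝ) * (Γ (j l)).card) ^ (1 / (d : ℝ)) ≤ Lam) :
    (d : ℝ) * ∑ i ∈ Finset.range l, ((j (i + 1) : ℝ) - j i - (Cd + h0)) * ∑ x ∈ Γ (j i), wt x.1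
      ≤ ∑ x ∈ Γ (j l), wt x.1 * (min (∑ i, (x.2 i : ℝ)) Lam + d) := by
  set S : Finset P := (Finset.range (l + 1)).biUnion fun i => (Γ (j i)).image Prod.fst with hS
  have hmem : ∀ i ≤ l, ∀ x ∈ Γ (j i), x.1 ∈ S := by
    intro i hi x hx
    rw [hS, Finset.mem_biUnion]
    exact ⟨i, Finset.mem_range.mpr (by omega), Finset.mem_image_of_mem _ hx⟩
  have hR := sum_eq_sum_slice (Γ (j l)) S (hmem l le_rfl)
    (fun p β => wt p * (min (∑ i, (β i : ℝ)) Lam + d))
  rw [hR]
  have hL : ∀ i ∈ Finset.range l, ((j (i + 1) : ℝ) - j i - (Cd + h0)) * ∑ x ∈ Γ (j i), wt x.1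
      = ∑ p ∈ S, wt p * (((j (i + 1) : ℝ) - j i - (Cd + h0)) * (slice (Γ (j i)) p).card) := by
    intro i hi
    have h1 := sum_eq_sum_slice (Γ (j i)) S (hmem i (Finset.mem_range.mp hi).le) (fun p _ => wt p)
    rw [h1, Finset.mul_sum]
    apply Finset.sum_congr rfl
    intro p _
    rw [Finset.sum_const, nsmul_eq_mul]
    ring
  rw [Finset.sum_congr rfl hL, Finset.sum_comm, Finset.mul_sum]
  apply Finset.sum_le_sum
  intro p _
  have h1 := slice_moment_one d hd Γ G0 hact h0 hcube Cd Hd hgrow hne l j hinc hinc' Lam hLam p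
  have h2 := mul_le_mul_of_nonneg_left h1 (hwt p)
  rw [← Finset.mul_sum, ← Finset.mul_sum]
  linarith

end Slices

end Claimed.Agent.R242
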